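import Vale.Agent.P225.Metric.LinkLine

/-!
P225, module A: the chart `U ≅ ℝ⁴ × S³`, the three gauges' frames and coframes, and metrics
`dr² + ω^G ᵀ M(r) ω^G`. The labels are attached to three group elements `g₀ = 1, g₁ = x/|x|,
g₂ = θ`; gauge `G` has coordinates `(g_{G+1}, g_{G+2}) g_G⁻¹`.
-/

noncomputable section

namespace Vale.Agent.P225

open Matrix
open scoped ContDiff

/-- Quaternions as four real coordinates. -/
abbrev Q4 := Fin 4 → ℝ

/-- Quaternion product. -/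
def qmul (p q : Q4) : Q4 :=
  ![p 0 * q 0 - p 1 * q 1 - p 2 * q 2 - p 3 * q 3,
    p 0 * q 1 + p 1 * q 0 + p 2 * q 3 - p 3 * q 2,
    p 0 * q 2 - p 1 * q 3 + p 2 * q 0 + p 3 * q 1,
    p 0 * q 3 + p 1 * q 2 - p 2 * q 1 + p 3 * q 0]

/-- Conjugate quaternion. -/
def qconj (q : Q4) : Q4 := ![q 0, -q 1, -q 2, -q 3]

/-- Imaginary unit. -/
def qunit (k : Fin 3) : Q4 := fun i => if i = k.succ then 1 else 0

/-- Left-invariant field on quaternions, normalised by `[X_i, X_j] = X_k`. -/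
def qfield (k : Fin 3) (q : Q4) : Q4 := (1 / 2 : ℝ) • qmul q (qunit k)

/-- Squared length. -/
def qnsq (q : Q4) : ℝ := ∑ i, q i * q i

/-- Adjoint rotation. -/
def qAd (q : Q4) : Matrix (Fin 3) (Fin 3) ℝ :=
  fun k l => qmul (qmul q (qunit l)) (qconj q) k.succ / qnsq q

/-- The `y` part of a point of `ℝ⁷`. -/
def yPart (v : Pt) : Q4 := fun i => v (Fin.castLE (by norm_num) i)

/-- The chart domain. -/
def chartU : Set Pt := {v | yPart v ≠ 0}

/-- The `ℝ⁴` coordinate. -/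
def xC (v : Pt) : Q4 := ![Real.log (Real.sqrt (qnsq (yPart v))), v 4, v 5, v 6]

/-- The `S³` coordinate. -/
def thC (v : Pt) : Q4 := (Real.sqrt (qnsq (yPart v)))⁻¹ • yPart v

/-- Distance from the core sphere. -/
def rad (v : Pt) : ℝ := Real.sqrt (qnsq (xC v))

/-- The complement of the core. -/
def chartV : Set Pt := {v | v ∈ chartU ∧ xC v ≠ 0}

/-- Tangent vector of the chart with prescribed images in `ℝ⁴` and `S³`. -/
def liftVec (v : Pt) (dx dth : Q4) : Pt :=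
  let w : Q4 := Real.sqrt (qnsq (yPart v)) • (dx 0 • thC v + dth)
  ![w 0, w 1, w 2, w 3, dx 1, dx 2, dx 3]

/-- Frame of the base gauge: `∂_r`, fields on `x`, fields on `θ`. -/
def baseFrame : Fin 7 → Pt → Pt :=
  Fin.cons (fun v => liftVec v ((rad v)⁻¹ • xC v) 0) fun i v =>
    if (lkSplit i).1 = 0 then liftVec v (qfield (lkSplit i).2 (xC v)) 0
    else liftVec v 0 (qfield (lkSplit i).2 (thC v))

/-- Coframe of the base gauge on the link. -/
def baseCoframe (v : Pt) (a : Pt) (i : Fin 6) : ℝ :=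
  if (lkSplit i).1 = 0 then
    4 * (∑ j, qfield (lkSplit i).2 (xC v) j * fderiv ℝ xC v a j) / qnsq (xC v)
  else 4 * ∑ j, qfield (lkSplit i).2 (thC v) j * fderiv ℝ thC v a j

/-- Matrix with four `3 × 3` blocks. -/
def blocks2 (A B C D : Matrix (Fin 3) (Fin 3) ℝ) : Matrix (Fin 6) (Fin 6) ℝ := fun i j =>
  let a := (lkSplit i).2
  let b := (lkSplit j).2
  if (lkSplit i).1 = 0 then (if (lkSplit j).1 = 0 then A a b else B a b)
  else (if (lkSplit j).1 = 0 then C a b else D a b)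

/-- `ω^G = gaugeL G · ω^0`. -/
def gaugeL (G : Fin 3) (v : Pt) : Matrix (Fin 6) (Fin 6) ℝ :=
  match G with
  | 0 => 1
  | 1 => blocks2 (-qAd (xC v)) (qAd (xC v)) (-qAd (xC v)) 0
  | 2 => blocks2 0 (-qAd (thC v)) (qAd (thC v)) (-qAd (thC v))

/-- Frame of a gauge. -/
def gaugeFrame (G : Fin 3) : Fin 7 → Pt → Pt :=
  Fin.cons (baseFrame 0) fun i v => ∑ j, (gaugeL G v)⁻¹ j i • baseFrame (lk j) v

/-- Structure constants on all seven indices. -/
def chartC (a b d : Fin 7) : ℝ :=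
  if h : a ≠ 0 ∧ b ≠ 0 ∧ d ≠ 0 then linkC (a.pred h.1) (b.pred h.2.1) (d.pred h.2.2) else 0

/-- `dr² + ω^G ᵀ M(r) ω^G`, on the complement of the core. -/
def gaugeMetric (G : Fin 3) (M : ℝ → Matrix (Fin 6) (Fin 6) ℝ) : MetricField := fun v i j =>
  fderiv ℝ rad v (Pi.single i 1) * fderiv ℝ rad v (Pi.single j 1) +
    ∑ k, ∑ l, M (rad v) k l * (gaugeL G v *ᵥ baseCoframe v (Pi.single i 1)) k *
      (gaugeL G v *ᵥ baseCoframe v (Pi.single j 1)) l

/-- Product of flat `ℝ⁴` and a round sphere. -/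
def coreMetric (β : ℝ) : MetricField := fun v i j =>
  (∑ k, fderiv ℝ xC v (Pi.single i 1) k * fderiv ℝ xC v (Pi.single j 1) k) +
    β * ∑ k, fderiv ℝ thC v (Pi.single i 1) k * fderiv ℝ thC v (Pi.single j 1) k

namespace Chart

/-! ### Indices and blocks -/

/-- The link index of a factor and a direction. -/
def lkMk (s : Fin 2) (k : Fin 3) : Fin 6 := ⟨3 * s.1 + k.1, by omega⟩

lemma lkSplit_lkMk (s : Fin 2) (k : Fin 3) : lkSplit (lkMk s k) = (s, k) := by
  fin_cases s <;> fin_cases k <;> rfl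

lemma exists_lkMk (i : Fin 6) : ∃ s k, i = lkMk s k :=
  ⟨(lkSplit i).1, (lkSplit i).2, Fin.ext (by simp only [lkMk, lkSplit]; omega)⟩

lemma lkMk_inj (s t : Fin 2) (k l : Fin 3) : lkMk s k = lkMk t l ↔ s = t ∧ k = l := by
  constructor
  · intro h
    simpa [lkSplit_lkMk] using congrArg lkSplit h
  · rintro ⟨rfl, rfl⟩; rfl

lemma sum_six {M : Type*} [AddCommMonoid M] (f : Fin 6 → M) :
    ∑ i, f i = (∑ k, f (lkMk 0 k)) + ∑ k, f (lkMk 1 k) := by
  simp only [Fin.sum_univ_six, Fin.sum_univ_three, ← add_assoc]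
  rfl

lemma blocks2_apply (A B C D : Matrix (Fin 3) (Fin 3) ℝ) (k l : Fin 3) :
    blocks2 A B C D (lkMk 0 k) (lkMk 0 l) = A k l ∧ blocks2 A B C D (lkMk 0 k) (lkMk 1 l) = B k l ∧
      blocks2 A B C D (lkMk 1 k) (lkMk 0 l) = C k l ∧
      blocks2 A B C D (lkMk 1 k) (lkMk 1 l) = D k l := by
  simp [blocks2, lkSplit_lkMk]

lemma blocks2_mul (A B C D A' B' C' D' : Matrix (Fin 3) (Fin 3) ℝ) :
    blocks2 A B C D * blocks2 A' B' C' D' =
      blocks2 (A * A' + B * C') (A * B' + B * D') (C * A' + D * C') (C * B' + D * D') := by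
  ext i j
  obtain ⟨s, k, rfl⟩ := exists_lkMk i
  obtain ⟨t, l, rfl⟩ := exists_lkMk j
  rw [Matrix.mul_apply, sum_six]
  fin_cases s <;> fin_cases t <;>
    simp [blocks2, lkSplit_lkMk, Matrix.mul_apply]

lemma blocks2_transpose (A B C D : Matrix (Fin 3) (Fin 3) ℝ) :
    (blocks2 A B C D)ᵀ = blocks2 Aᵀ Cᵀ Bᵀ Dᵀ := by
  ext i j
  obtain ⟨s, k, rfl⟩ := exists_lkMk i
  obtain ⟨t, l, rfl⟩ := exists_lkMk j
  fin_cases s <;> fin_cases t <;> simp [blocks2, lkSplit_lkMk]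

lemma blocks2_one : blocks2 1 0 0 1 = 1 := by
  ext i j
  fin_cases i <;> fin_cases j <;> simp [blocks2, lkSplit, Matrix.one_apply]

lemma adInv_eq (Q : Matrix (Fin 2) (Fin 2) ℝ) :
    adInv Q = blocks2 (Q 0 0 • 1) (Q 0 1 • 1) (Q 1 0 • 1) (Q 1 1 • 1) := by
  ext i j
  obtain ⟨s, k, rfl⟩ := exists_lkMk i
  obtain ⟨t, l, rfl⟩ := exists_lkMk j
  fin_cases s <;> fin_cases t <;>
    simp [blocks2, adInv, lkSplit_lkMk, Matrix.one_apply]

/-! ### Quaternions -/

lemma qmul_assoc (p q r : Q4) : qmul (qmul p q) r = qmul p (qmul q r) := by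
  ext i; fin_cases i <;> simp [qmul] <;> ring

lemma qconj_qconj (q : Q4) : qconj (qconj q) = q := by
  ext i; fin_cases i <;> simp [qconj]

lemma qnsq_eq (q : Q4) : qnsq q = q 0 * q 0 + q 1 * q 1 + q 2 * q 2 + q 3 * q 3 := by
  simp [qnsq, Fin.sum_univ_four]

lemma qnsq_nonneg (q : Q4) : 0 ≤ qnsq q := Finset.sum_nonneg fun i _ => mul_self_nonneg _

lemma qnsq_pos {q : Q4} (hq : q ≠ 0) : 0 < qnsq q := by
  obtain ⟨i, hi⟩ := Function.ne_iff.1 hq
  exact Finset.sum_pos' (fun j _ => mul_self_nonneg _)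
    ⟨i, Finset.mem_univ _, mul_self_pos.2 hi⟩

lemma qnsq_qconj (q : Q4) : qnsq (qconj q) = qnsq q := by
  simp [qnsq_eq, qconj]

lemma qnsq_qmul (p q : Q4) : qnsq (qmul p q) = qnsq p * qnsq q := by
  simp [qnsq_eq, qmul]; ring

lemma qmul_ne_zero {p q : Q4} (hp : p ≠ 0) (hq : q ≠ 0) : qmul p q ≠ 0 := fun h => by
  refine (mul_pos (qnsq_pos hp) (qnsq_pos hq)).ne' ?_
  rw [← qnsq_qmul, h]
  simp [qnsq_eq]

lemma qconj_ne_zero {q : Q4} (hq : q ≠ 0) : qconj q ≠ 0 := fun h =>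
  hq (by rw [← qconj_qconj q, h]; ext i; fin_cases i <;> simp [qconj])

/-- The product as a bilinear map. -/
def qmulB : Q4 →ₗ[ℝ] Q4 →ₗ[ℝ] Q4 :=
  LinearMap.mk₂ ℝ qmul
    (fun a b c => by ext i; fin_cases i <;> simp [qmul] <;> ring)
    (fun r a c => by ext i; fin_cases i <;> simp [qmul] <;> ring)
    (fun a b c => by ext i; fin_cases i <;> simp [qmul] <;> ring)
    (fun r a c => by ext i; fin_cases i <;> simp [qmul] <;> ring)

/-- The product as a continuous bilinear map. -/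
def qmulL : Q4 →L[ℝ] Q4 →L[ℝ] Q4 :=
  LinearMap.toContinuousLinearMap
    ((LinearMap.toContinuousLinearMap :
      (Q4 →ₗ[ℝ] Q4) ≃ₗ[ℝ] (Q4 →L[ℝ] Q4)).toLinearMap.comp qmulB)

@[simp] lemma qmulL_apply (p q : Q4) : qmulL p q = qmul p q := rfl

/-- Conjugation as a linear map. -/
def qconjL : Q4 →L[ℝ] Q4 :=
  LinearMap.toContinuousLinearMap
    { toFun := qconj
      map_add' := fun a b => by ext i; fin_cases i <;> simp [qconj] <;> ring
      map_smul' := fun r a => by ext i; fin_cases i <;> simp [qconj] }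

@[simp] lemma qconjL_apply (q : Q4) : qconjL q = qconj q := rfl

lemma qconj_smul (r : ℝ) (q : Q4) : qconj (r • q) = r • qconj q := qconjL.map_smul r q

lemma qmul_smul (r : ℝ) (p q : Q4) : qmul p (r • q) = r • qmul p q := (qmulL p).map_smul r q

lemma smul_qmul (r : ℝ) (p q : Q4) : qmul (r • p) q = r • qmul p q := by
  ext i; fin_cases i <;> simp [qmul] <;> ring

lemma qmul_zero' (p : Q4) : qmul p 0 = 0 := (qmulL p).map_zero

lemma zero_qmul' (p : Q4) : qmul 0 p = 0 := by ext i; fin_cases i <;> simp [qmul]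

lemma qconj_zero : qconj 0 = 0 := qconjL.map_zero

/-- A left-invariant field as a linear map. -/
def qfieldL (k : Fin 3) : Q4 →L[ℝ] Q4 := (1 / 2 : ℝ) • qmulL.flip (qunit k)

@[simp] lemma qfieldL_apply (k : Fin 3) (q : Q4) : qfieldL k q = qfield k q := rfl

lemma qfield_smul (k : Fin 3) (r : ℝ) (q : Q4) : qfield k (r • q) = r • qfield k q :=
  (qfieldL k).map_smul r q

lemma qfield_bracket (k l : Fin 3) (q : Q4) :
    qfield l (qfield k q) - qfield k (qfield l q) = ∑ m, eps3 k l m • qfield m q := by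
  ext i
  fin_cases k <;> fin_cases l <;> fin_cases i <;>
    simp [qfield, qmul, qunit, eps3, Fin.sum_univ_three] <;> ring

lemma qfield_ortho (k l : Fin 3) (q : Q4) :
    ∑ j, qfield k q j * qfield l q j = if k = l then qnsq q / 4 else 0 := by
  simp only [qnsq_eq, Fin.sum_univ_four]
  fin_cases k <;> fin_cases l <;> simp [qfield, qmul, qunit] <;> ring

lemma qfield_orth (k : Fin 3) (q : Q4) : ∑ j, q j * qfield k q j = 0 := by
  fin_cases k <;> simp [qfield, qmul, qunit, Fin.sum_univ_four] <;> ring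

/-- Completeness of the orthogonal system `q, X_k q`. -/
lemma qfield_parseval (q a b : Q4) :
    qnsq q * ∑ j, a j * b j = (∑ j, q j * a j) * (∑ j, q j * b j) +
      4 * ∑ k, (∑ j, qfield k q j * a j) * ∑ j, qfield k q j * b j := by
  simp [qfield, qmul, qunit, qnsq_eq, Fin.sum_univ_four, Fin.sum_univ_three]
  ring

lemma sum_qfield (c : Fin 3 → ℝ) (q : Q4) :
    ∑ i, c i • qfield i q = (1 / 2 : ℝ) • qmul q (∑ i, c i • qunit i) := by
  rw [← qmulL_apply, map_sum, Finset.smul_sum]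
  refine Finset.sum_congr rfl fun i _ => ?_
  rw [map_smul, smul_comm, qmulL_apply, qfield]

lemma sum_qAd (q : Q4) (l : Fin 3) :
    ∑ i, qAd q i l • qunit i = (qnsq q)⁻¹ • qmul (qmul q (qunit l)) (qconj q) := by
  ext j
  fin_cases l <;> fin_cases j <;>
    simp [qAd, qmul, qconj, qunit, Fin.sum_univ_three] <;> ring_nf <;> simp

lemma qmul_qconj_left (q r : Q4) : qmul (qconj q) (qmul q r) = qnsq q • r := by
  ext i; fin_cases i <;> simp [qmul, qconj, qnsq_eq] <;> ring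

/-- The key identity of the gauge changes. -/
lemma sum_qAd_qfield (p : Q4) {q : Q4} (hq : q ≠ 0) (l : Fin 3) :
    ∑ i, qAd q i l • qfield i (qmul p (qconj q)) =
      (1 / 2 : ℝ) • qmul (qmul p (qunit l)) (qconj q) := by
  rw [sum_qfield, sum_qAd, qmul_smul, qmul_assoc p (qconj q), qmul_assoc q (qunit l),
    qmul_qconj_left, qmul_smul, smul_smul, smul_smul, ← qmul_assoc, mul_assoc,
    inv_mul_cancel₀ (qnsq_pos hq).ne', mul_one]

lemma qAd_mul_transpose {q : Q4} (hq : q ≠ 0) : qAd q * (qAd q)ᵀ = 1 := by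
  set R : Fin 3 → Fin 3 → ℝ := fun k m => qmul (qmul q (qunit m)) (qconj q) k.succ with hR
  have key : ∀ k l, ∑ m, R k m * R l m = if k = l then qnsq q ^ 2 else 0 := by
    intro k l
    simp only [hR, qnsq_eq, Fin.sum_univ_three]
    fin_cases k <;> fin_cases l <;> simp [qmul, qconj, qunit] <;> ring
  ext k l
  simp only [Matrix.mul_apply, Matrix.transpose_apply, qAd, div_mul_div_comm, ← Finset.sum_div]
  rw [key, Matrix.one_apply]
  split_ifs
  · rw [sq, div_self (mul_ne_zero (qnsq_pos hq).ne' (qnsq_pos hq).ne')]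
  · rw [zero_div]

lemma qAd_transpose_mul {q : Q4} (hq : q ≠ 0) : (qAd q)ᵀ * qAd q = 1 :=
  mul_eq_one_comm.1 (qAd_mul_transpose hq)

/-! ### Calculus of the coordinates -/

/-- Euclidean length. -/
def qlen (q : Q4) : ℝ := Real.sqrt (qnsq q)

/-- Direction. -/
def qdir (q : Q4) : Q4 := (qlen q)⁻¹ • q

/-- Pairing with a fixed quaternion. -/
def qdotL (q : Q4) : Q4 →L[ℝ] ℝ :=
  ∑ i, q i • ContinuousLinearMap.proj (R := ℝ) (φ := fun _ : Fin 4 => ℝ) i

lemma qdotL_apply (q a : Q4) : qdotL q a = ∑ i, q i * a i := by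
  simp [qdotL]

lemma qlen_pos {q : Q4} (hq : q ≠ 0) : 0 < qlen q := Real.sqrt_pos.2 (qnsq_pos hq)

lemma qlen_sq (q : Q4) : qlen q ^ 2 = qnsq q := Real.sq_sqrt (qnsq_nonneg q)

lemma hasFDerivAt_qlen {q : Q4} (hq : q ≠ 0) :
    HasFDerivAt qlen ((qlen q)⁻¹ • qdotL q) q := by
  have hs : HasFDerivAt qnsq ((2 : ℝ) • qdotL q) q := by
    have h := HasFDerivAt.fun_sum (u := Finset.univ) fun i (_ : i ∈ Finset.univ) =>
      ((ContinuousLinearMap.proj (R := ℝ) (φ := fun _ : Fin 4 => ℝ) i).hasFDerivAt (x := q)).mul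
        ((ContinuousLinearMap.proj (R := ℝ) (φ := fun _ : Fin 4 => ℝ) i).hasFDerivAt (x := q))
    refine h.congr_fderiv ?_
    simp only [qdotL, Finset.smul_sum]
    refine Finset.sum_congr rfl fun i _ => ?_
    ext a
    simp
    ring
  refine (hs.sqrt (qnsq_pos hq).ne').congr_fderiv ?_
  rw [smul_smul, qlen]
  congr 1
  field_simp

lemma fderiv_qlen_apply {q : Q4} (hq : q ≠ 0) (a : Q4) :
    fderiv ℝ qlen q a = (qlen q)⁻¹ * ∑ i, q i * a i := by
  simp [(hasFDerivAt_qlen hq).fderiv, qdotL_apply]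

lemma hasFDerivAt_qdir {q : Q4} (hq : q ≠ 0) :
    HasFDerivAt qdir ((qlen q)⁻¹ • (ContinuousLinearMap.id ℝ Q4) +
      ((-((qlen q ^ 2)⁻¹)) • ((qlen q)⁻¹ • qdotL q)).smulRight q) q :=
  (((hasDerivAt_inv (qlen_pos hq).ne').comp_hasFDerivAt q (hasFDerivAt_qlen hq)).fun_smul (hasFDerivAt_id q)).congr_fderiv
    (by rfl)

lemma fderiv_qdir_apply {q : Q4} (hq : q ≠ 0) (a : Q4) :
    fderiv ℝ qdir q a = (qlen q)⁻¹ • a - (((qlen q)⁻¹) ^ 3 * ∑ i, q i * a i) • q := by
  rw [(hasFDerivAt_qdir hq).fderiv]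
  ext j
  simp [qdotL_apply]
  ring

lemma contDiffAt_qlen {q : Q4} (hq : q ≠ 0) : ContDiffAt ℝ ∞ qlen q := by
  refine ContDiffAt.sqrt ?_ (qnsq_pos hq).ne'
  exact ContDiffAt.sum fun i _ => (contDiffAt_apply ℝ ℝ i q).mul (contDiffAt_apply ℝ ℝ i q)

lemma contDiffAt_qdir {q : Q4} (hq : q ≠ 0) : ContDiffAt ℝ ∞ qdir q :=
  ((contDiffAt_qlen hq).inv (qlen_pos hq).ne').smul contDiffAt_id

/-- The `y` part as a linear map. -/
def yPartL : Pt →L[ℝ] Q4 :=
  ContinuousLinearMap.pi fun i : Fin 4 =>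
    ContinuousLinearMap.proj (R := ℝ) (φ := fun _ : Fin 7 => ℝ) (Fin.castLE (by norm_num) i)

@[simp] lemma yPartL_apply (v : Pt) : yPartL v = yPart v := rfl

lemma thC_eq : thC = qdir ∘ yPartL := rfl

lemma rad_eq : rad = qlen ∘ xC := rfl

lemma fderiv_thC_apply {v : Pt} (hv : v ∈ chartU) (a : Pt) :
    fderiv ℝ thC v a = (qlen (yPart v))⁻¹ • yPart a -
      (((qlen (yPart v))⁻¹) ^ 3 * ∑ i, yPart v i * yPart a i) • yPart v := by
  rw [thC_eq, fderiv_comp (g := qdir) (f := ⇑yPartL) v (hasFDerivAt_qdir hv).differentiableAt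
    yPartL.differentiableAt,
    yPartL.fderiv, ContinuousLinearMap.comp_apply, yPartL_apply, yPartL_apply,
    fderiv_qdir_apply hv]

lemma hasFDerivAt_xC {v : Pt} (hv : v ∈ chartU) :
    HasFDerivAt xC (ContinuousLinearMap.pi
      ![(qlen (yPart v))⁻¹ • ((qlen (yPart v))⁻¹ • qdotL (yPart v)).comp yPartL,
        ContinuousLinearMap.proj 4, ContinuousLinearMap.proj 5, ContinuousLinearMap.proj 6]) v := by
  refine hasFDerivAt_pi.2 fun i => ?_
  fin_cases i
  · exact ((hasFDerivAt_qlen hv).comp v yPartL.hasFDerivAt).log (qlen_pos hv).ne'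
  · exact (ContinuousLinearMap.proj (R := ℝ) (φ := fun _ : Fin 7 => ℝ) 4).hasFDerivAt
  · exact (ContinuousLinearMap.proj (R := ℝ) (φ := fun _ : Fin 7 => ℝ) 5).hasFDerivAt
  · exact (ContinuousLinearMap.proj (R := ℝ) (φ := fun _ : Fin 7 => ℝ) 6).hasFDerivAt

lemma fderiv_xC_apply {v : Pt} (hv : v ∈ chartU) (a : Pt) :
    fderiv ℝ xC v a =
      ![((qlen (yPart v))⁻¹) ^ 2 * ∑ i, yPart v i * yPart a i, a 4, a 5, a 6] := by
  rw [(hasFDerivAt_xC hv).fderiv]
  ext i
  fin_cases i <;> simp [qdotL_apply]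
  ring

lemma contDiffAt_thC {v : Pt} (hv : v ∈ chartU) : ContDiffAt ℝ ∞ thC v := by
  rw [thC_eq]
  exact ContDiffAt.comp v (contDiffAt_qdir hv) yPartL.contDiff.contDiffAt

lemma contDiffAt_xC {v : Pt} (hv : v ∈ chartU) : ContDiffAt ℝ ∞ xC v := by
  refine contDiffAt_pi.2 fun i => ?_
  fin_cases i
  · exact ((contDiffAt_qlen hv).comp v yPartL.contDiff.contDiffAt).log (qlen_pos hv).ne'
  · exact contDiffAt_apply ℝ ℝ 4 v
  · exact contDiffAt_apply ℝ ℝ 5 v
  · exact contDiffAt_apply ℝ ℝ 6 v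

lemma contDiffAt_rad {v : Pt} (hv : v ∈ chartV) : ContDiffAt ℝ ∞ rad v := by
  rw [rad_eq]
  exact (contDiffAt_qlen hv.2).comp v (contDiffAt_xC hv.1)

lemma fderiv_rad_apply {v : Pt} (hv : v ∈ chartV) (a : Pt) :
    fderiv ℝ rad v a = (rad v)⁻¹ * ∑ i, xC v i * fderiv ℝ xC v a i := by
  rw [rad_eq, fderiv_comp v (hasFDerivAt_qlen hv.2).differentiableAt
    (hasFDerivAt_xC hv.1).differentiableAt, ContinuousLinearMap.comp_apply,
    fderiv_qlen_apply hv.2]
  rfl

lemma qnsq_thC {v : Pt} (hv : v ∈ chartU) : qnsq (thC v) = 1 := by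
  have h := (qlen_pos hv).ne'
  show qnsq ((qlen (yPart v))⁻¹ • yPart v) = 1
  rw [show qnsq ((qlen (yPart v))⁻¹ • yPart v) = ((qlen (yPart v))⁻¹) ^ 2 * qnsq (yPart v) by
    simp [qnsq_eq]; ring, ← qlen_sq (yPart v)]
  field_simp

lemma thC_ne_zero {v : Pt} (hv : v ∈ chartU) : thC v ≠ 0 := fun h => by
  simpa [h, qnsq_eq] using qnsq_thC hv

lemma thC_dot_fderiv {v : Pt} (hv : v ∈ chartU) (a : Pt) :
    ∑ i, thC v i * fderiv ℝ thC v a i = 0 := by
  have h := (qlen_pos hv).ne'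
  have h2 := qlen_sq (yPart v)
  rw [qnsq_eq] at h2
  rw [fderiv_thC_apply hv]
  show ∑ i, ((qlen (yPart v))⁻¹ • yPart v) i * _ = 0
  simp only [Fin.sum_univ_four, Pi.smul_apply, Pi.sub_apply, smul_eq_mul]
  field_simp
  linear_combination
    (yPart v 0 * yPart a 0 + yPart v 1 * yPart a 1 + yPart v 2 * yPart a 2 +
      yPart v 3 * yPart a 3) * h2

end Chart

namespace Chart

/-! ### The frames -/

lemma yPart_eq {v : Pt} (hv : v ∈ chartU) : yPart v = qlen (yPart v) • thC v := by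
  show _ = qlen (yPart v) • ((qlen (yPart v))⁻¹ • yPart v)
  rw [smul_smul, mul_inv_cancel₀ (qlen_pos hv).ne', one_smul]

lemma yPart_liftVec (v : Pt) (dx dth : Q4) :
    yPart (liftVec v dx dth) = qlen (yPart v) • (dx 0 • thC v + dth) := by
  ext i; fin_cases i <;> rfl

lemma fderiv_xC_liftVec {v : Pt} (hv : v ∈ chartU) (dx dth : Q4)
    (h : ∑ i, thC v i * dth i = 0) : fderiv ℝ xC v (liftVec v dx dth) = dx := by
  have hρ := (qlen_pos hv).ne'
  have h1 := qnsq_thC hv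
  have hy := yPart_eq hv
  rw [fderiv_xC_apply hv, yPart_liftVec]
  ext i
  fin_cases i
  · simp only [Fin.zero_eta, Matrix.cons_val_zero, Pi.smul_apply, Pi.add_apply, smul_eq_mul,
      Fin.sum_univ_four] at *
    rw [qnsq_eq] at h1
    have e : ∀ j, yPart v j = qlen (yPart v) * thC v j := fun j => by
      have := congrFun hy j
      simpa using this
    rw [e 0, e 1, e 2, e 3]
    field_simp
    linear_combination dx 0 * h1 + h
  all_goals rfl

lemma fderiv_thC_liftVec {v : Pt} (hv : v ∈ chartU) (dx dth : Q4)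
    (h : ∑ i, thC v i * dth i = 0) : fderiv ℝ thC v (liftVec v dx dth) = dth := by
  have hρ := (qlen_pos hv).ne'
  have h1 := qnsq_thC hv
  have e : ∀ j, yPart v j = qlen (yPart v) * thC v j := fun j => by
    have := congrFun (yPart_eq hv) j
    simpa using this
  rw [fderiv_thC_apply hv, yPart_liftVec]
  ext i
  simp only [Pi.sub_apply, Pi.smul_apply, Pi.add_apply, smul_eq_mul, Fin.sum_univ_four] at *
  rw [qnsq_eq] at h1
  rw [e 0, e 1, e 2, e 3, e i]
  field_simp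
  linear_combination -(dx 0 * thC v i) * h1 - thC v i * h

lemma liftVec_fderiv {v : Pt} (hv : v ∈ chartU) (a : Pt) :
    liftVec v (fderiv ℝ xC v a) (fderiv ℝ thC v a) = a := by
  have hρ := (qlen_pos hv).ne'
  have hth : thC v = (qlen (yPart v))⁻¹ • yPart v := rfl
  have hy : ∀ j, qlen (yPart v) * ((fderiv ℝ xC v a 0) * thC v j + fderiv ℝ thC v a j) =
      yPart a j := fun j => by
    rw [fderiv_xC_apply hv, fderiv_thC_apply hv, hth]
    simp only [Matrix.cons_val_zero, Pi.sub_apply, Pi.smul_apply, smul_eq_mul]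
    field_simp
    ring
  ext i
  fin_cases i
  · exact hy 0
  · exact hy 1
  · exact hy 2
  · exact hy 3
  all_goals simp [liftVec, fderiv_xC_apply hv]

lemma baseFrame_zero (v : Pt) : baseFrame 0 v = liftVec v ((rad v)⁻¹ • xC v) 0 := rfl

lemma baseFrame_lk0 (k : Fin 3) (v : Pt) :
    baseFrame (lk (lkMk 0 k)) v = liftVec v (qfield k (xC v)) 0 := by
  simp [baseFrame, lkSplit_lkMk]

lemma baseFrame_lk1 (k : Fin 3) (v : Pt) :
    baseFrame (lk (lkMk 1 k)) v = liftVec v 0 (qfield k (thC v)) := by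
  simp [baseFrame, lkSplit_lkMk]

lemma qfield_zero (k : Fin 3) : qfield k 0 = 0 := (qfieldL k).map_zero

/-- Images of the base frame. -/
lemma deriv_base {v : Pt} (hv : v ∈ chartU) (k : Fin 3) :
    (fderiv ℝ xC v (baseFrame 0 v) = (rad v)⁻¹ • xC v ∧
      fderiv ℝ thC v (baseFrame 0 v) = 0) ∧
    (fderiv ℝ xC v (baseFrame (lk (lkMk 0 k)) v) = qfield k (xC v) ∧
      fderiv ℝ thC v (baseFrame (lk (lkMk 0 k)) v) = 0) ∧
    fderiv ℝ xC v (baseFrame (lk (lkMk 1 k)) v) = 0 ∧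
      fderiv ℝ thC v (baseFrame (lk (lkMk 1 k)) v) = qfield k (thC v) := by
  have h0 : ∑ i, thC v i * (0 : Q4) i = 0 := by simp
  have h1 := qfield_orth k (thC v)
  rw [baseFrame_zero, baseFrame_lk0, baseFrame_lk1]
  exact ⟨⟨fderiv_xC_liftVec hv _ _ h0, fderiv_thC_liftVec hv _ _ h0⟩,
    ⟨fderiv_xC_liftVec hv _ _ h0, fderiv_thC_liftVec hv _ _ h0⟩,
    fderiv_xC_liftVec hv _ _ h1, fderiv_thC_liftVec hv _ _ h1⟩

/-- The inverse gauge matrix. -/
def gaugeLinv (G : Fin 3) (v : Pt) : Matrix (Fin 6) (Fin 6) ℝ :=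
  match G with
  | 0 => 1
  | 1 => blocks2 0 (-(qAd (xC v))ᵀ) (qAd (xC v))ᵀ (-(qAd (xC v))ᵀ)
  | 2 => blocks2 (-(qAd (thC v))ᵀ) (qAd (thC v))ᵀ (-(qAd (thC v))ᵀ) 0

lemma gaugeL_mul_inv {v : Pt} (hv : v ∈ chartV) (G : Fin 3) :
    gaugeL G v * gaugeLinv G v = 1 := by
  have h1 := qAd_mul_transpose hv.2
  have h2 := qAd_mul_transpose (thC_ne_zero hv.1)
  rw [← blocks2_one]
  fin_cases G <;> simp [gaugeL, gaugeLinv, blocks2_mul, blocks2_one, h1, h2]

lemma gaugeL_inv {v : Pt} (hv : v ∈ chartV) (G : Fin 3) :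
    (gaugeL G v)⁻¹ = gaugeLinv G v := Matrix.inv_eq_right_inv (gaugeL_mul_inv hv G)

lemma gaugeFrame_lk (G : Fin 3) (i : Fin 6) {v : Pt} (hv : v ∈ chartV) :
    gaugeFrame G (lk i) v = ∑ j, gaugeLinv G v j i • baseFrame (lk j) v := by
  simp [gaugeFrame, gaugeL_inv hv G]

lemma gaugeFrame_zero (G : Fin 3) : gaugeFrame G 0 = baseFrame 0 := rfl

/-- The coordinates of a gauge. -/
def gMap (G : Fin 3) (v : Pt) : Q4 × Q4 :=
  match G with
  | 0 => (xC v, thC v)
  | 1 => (qmul (thC v) (qconj (xC v)), qconj (xC v))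
  | 2 => (qconj (thC v), qmul (xC v) (qconj (thC v)))

/-- The linear model fields. -/
def gLin (i : Fin 6) : Q4 × Q4 →L[ℝ] Q4 × Q4 :=
  if (lkSplit i).1 = 0 then
    ((qfieldL (lkSplit i).2).comp (ContinuousLinearMap.fst ℝ Q4 Q4)).prod 0
  else ContinuousLinearMap.prod 0 ((qfieldL (lkSplit i).2).comp (ContinuousLinearMap.snd ℝ Q4 Q4))

/-- Which components move radially in a gauge. -/
def gCoef (G : Fin 3) : ℝ × ℝ :=
  match G with
  | 0 => (1, 0)
  | 1 => (1, 1)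
  | 2 => (0, 1)

/-- The model fields of a gauge. -/
def gModel (G : Fin 3) : Fin 7 → Q4 × Q4 → Q4 × Q4 :=
  Fin.cons (fun y => ((gCoef G).1 • qdir y.1, (gCoef G).2 • qdir y.2)) fun i => ⇑(gLin i)

lemma gLin_lk0 (k : Fin 3) (y : Q4 × Q4) : gLin (lkMk 0 k) y = (qfield k y.1, 0) := by
  simp [gLin, lkSplit_lkMk]

lemma gLin_lk1 (k : Fin 3) (y : Q4 × Q4) : gLin (lkMk 1 k) y = (0, qfield k y.2) := by
  simp [gLin, lkSplit_lkMk]

lemma gModel_lk (G : Fin 3) (i : Fin 6) : gModel G (lk i) = ⇑(gLin i) := by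
  simp [gModel]

lemma qconj_qfield (l : Fin 3) (q : Q4) :
    qconj (qfield l q) = -((1 / 2 : ℝ) • qmul (qunit l) (qconj q)) := by
  ext i; fin_cases l <;> fin_cases i <;> simp [qfield, qmul, qconj, qunit] <;> ring

lemma sum_qAd_qfield_one {q : Q4} (hq : q ≠ 0) (l : Fin 3) :
    ∑ i, qAd q i l • qfield i (qconj q) = (1 / 2 : ℝ) • qmul (qunit l) (qconj q) := by
  have h : ∀ p, qmul ![1, 0, 0, 0] p = p := fun p => by
    ext i; fin_cases i <;> simp [qmul]
  have := sum_qAd_qfield ![1, 0, 0, 0] hq l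
  rwa [h, h] at this

lemma qfield_qmul (p q : Q4) (l : Fin 3) :
    qfield l (qmul p q) = qmul p (qfield l q) := by
  rw [qfield, qfield, qmul_smul, qmul_assoc]

lemma qlen_qmul (p q : Q4) : qlen (qmul p q) = qlen p * qlen q := by
  rw [qlen, qnsq_qmul, Real.sqrt_mul (qnsq_nonneg p)]; rfl

lemma qlen_qconj (q : Q4) : qlen (qconj q) = qlen q := by
  rw [qlen, qnsq_qconj]; rfl

lemma qlen_thC {v : Pt} (hv : v ∈ chartU) : qlen (thC v) = 1 := by
  rw [qlen, qnsq_thC hv, Real.sqrt_one]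

lemma fderiv_gMap_apply {v : Pt} (hv : v ∈ chartU) (G : Fin 3) (a : Pt) :
    fderiv ℝ (gMap G) v a =
      match G with
      | 0 => (fderiv ℝ xC v a, fderiv ℝ thC v a)
      | 1 => (qmul (thC v) (qconj (fderiv ℝ xC v a)) + qmul (fderiv ℝ thC v a) (qconj (xC v)),
          qconj (fderiv ℝ xC v a))
      | 2 => (qconj (fderiv ℝ thC v a),
          qmul (xC v) (qconj (fderiv ℝ thC v a)) + qmul (fderiv ℝ xC v a) (qconj (thC v))) := by
  have hx := ((contDiffAt_xC hv).differentiableAt (by simp)).hasFDerivAt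
  have ht := ((contDiffAt_thC hv).differentiableAt (by simp)).hasFDerivAt
  have hxc := qconjL.hasFDerivAt.comp v hx
  have htc := qconjL.hasFDerivAt.comp v ht
  match G with
  | 0 =>
    exact congrArg (fun f : Pt →L[ℝ] Q4 × Q4 => f a) (hx.prodMk ht).fderiv
  | 1 =>
    exact congrArg (fun f : Pt →L[ℝ] Q4 × Q4 => f a)
      ((qmulL.hasFDerivAt_of_bilinear ht hxc).prodMk hxc).fderiv
  | 2 =>
    exact congrArg (fun f : Pt →L[ℝ] Q4 × Q4 => f a)
      (htc.prodMk (qmulL.hasFDerivAt_of_bilinear hx htc)).fderiv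

lemma fderiv_gMap_zero {v : Pt} (hv : v ∈ chartV) (G : Fin 3) :
    fderiv ℝ (gMap G) v (baseFrame 0 v) = gModel G 0 (gMap G v) := by
  obtain ⟨⟨hx, ht⟩, -⟩ := deriv_base hv.1 0
  rw [fderiv_gMap_apply hv.1]
  fin_cases G <;>
    simp [hx, ht, gModel, gMap, gCoef, qdir, qlen_qmul, qlen_qconj, qlen_thC hv.1, qmul_smul,
      smul_qmul, qconj_smul, rad_eq, qmul_zero', zero_qmul', qconj_zero]

lemma fderiv_gMap_base {v : Pt} (hv : v ∈ chartV) (G : Fin 3) (j : Fin 6) :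
    fderiv ℝ (gMap G) v (baseFrame (lk j) v) =
      ∑ i, gaugeL G v i j • gModel G (lk i) (gMap G v) := by
  obtain ⟨s, l, rfl⟩ := exists_lkMk j
  obtain ⟨-, ⟨hx0, ht0⟩, hx1, ht1⟩ := deriv_base hv.1 l
  rw [fderiv_gMap_apply hv.1]
  have hq := hv.2
  have hθ := thC_ne_zero hv.1
  have e1 := sum_qAd_qfield (thC v) hq l
  have e2 := sum_qAd_qfield_one hq l
  have e3 := sum_qAd_qfield (xC v) hθ l
  have e4 := sum_qAd_qfield_one hθ l
  simp only [gModel_lk, sum_six]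
  match G, s with
  | 0, 0 =>
    simp [gaugeL, ← blocks2_one, blocks2, lkSplit_lkMk, gMap, hx0, ht0, gLin_lk0, gLin_lk1,
      Matrix.one_apply, ite_smul, lkMk_inj]
  | 0, 1 =>
    simp [gaugeL, ← blocks2_one, blocks2, lkSplit_lkMk, gMap, hx1, ht1, gLin_lk0, gLin_lk1,
      Matrix.one_apply, ite_smul, lkMk_inj]
  | 1, 0 =>
    simp [gaugeL, blocks2, lkSplit_lkMk, gMap, hx0, ht0, gLin_lk0, gLin_lk1, zero_qmul',
      Prod.ext_iff, Prod.fst_sum, Prod.snd_sum, e1, e2, qconj_qfield]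
    rw [← qmulL_apply, map_neg, map_smul, qmulL_apply, qmul_assoc]
  | 1, 1 =>
    simp [gaugeL, blocks2, lkSplit_lkMk, gMap, hx1, ht1, gLin_lk0, gLin_lk1, qmul_zero', qconj_zero,
      Prod.ext_iff, Prod.fst_sum, Prod.snd_sum, e1]
    rw [qfield, smul_qmul]
    simp
  | 2, 0 =>
    simp [gaugeL, blocks2, lkSplit_lkMk, gMap, hx0, ht0, gLin_lk0, gLin_lk1, qmul_zero', qconj_zero,
      Prod.ext_iff, Prod.fst_sum, Prod.snd_sum, e3]
    rw [qfield, smul_qmul]
    simp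
  | 2, 1 =>
    simp [gaugeL, blocks2, lkSplit_lkMk, gMap, hx1, ht1, gLin_lk0, gLin_lk1, zero_qmul',
      Prod.ext_iff, Prod.fst_sum, Prod.snd_sum, e3, e4, qconj_qfield]
    rw [← qmulL_apply, map_neg, map_smul, qmulL_apply, qmul_assoc]

lemma fderiv_gMap_gauge {v : Pt} (hv : v ∈ chartV) (G : Fin 3) (a : Fin 7) :
    fderiv ℝ (gMap G) v (gaugeFrame G a v) = gModel G a (gMap G v) := by
  rcases Fin.eq_zero_or_eq_succ a with rfl | ⟨i, rfl⟩
  · rw [gaugeFrame_zero]; exact fderiv_gMap_zero hv G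
  rw [show (i.succ : Fin 7) = lk i from rfl, gaugeFrame_lk G i hv, map_sum]
  simp only [map_smul, fderiv_gMap_base hv, Finset.smul_sum, smul_smul]
  rw [Finset.sum_comm]
  simp only [← Finset.sum_smul]
  rw [Finset.sum_eq_single i]
  · rw [show ∑ j, gaugeLinv G v j i * gaugeL G v i j = (gaugeL G v * gaugeLinv G v) i i by
      simp [Matrix.mul_apply, mul_comm], gaugeL_mul_inv hv, Matrix.one_apply_eq, one_smul]
  · intro k _ hk
    rw [show ∑ j, gaugeLinv G v j i * gaugeL G v k j = (gaugeL G v * gaugeLinv G v) k i by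
      simp [Matrix.mul_apply, mul_comm], gaugeL_mul_inv hv, Matrix.one_apply_ne hk, zero_smul]
  · simp

lemma gMap_ne_zero {v : Pt} (hv : v ∈ chartV) (G : Fin 3) :
    (gMap G v).1 ≠ 0 ∧ (gMap G v).2 ≠ 0 := by
  have hθ := thC_ne_zero hv.1
  match G with
  | 0 => exact ⟨hv.2, hθ⟩
  | 1 => exact ⟨qmul_ne_zero hθ (qconj_ne_zero hv.2), qconj_ne_zero hv.2⟩
  | 2 => exact ⟨qconj_ne_zero hθ, qmul_ne_zero hv.2 (qconj_ne_zero hθ)⟩

lemma qfield_indep {q : Q4} (hq : q ≠ 0) {r : ℝ} {c : Fin 3 → ℝ}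
    (h : r • q + ∑ k, c k • qfield k q = 0) : r = 0 ∧ ∀ k, c k = 0 := by
  have h1 := congrArg (fun w : Q4 => ∑ j, q j * w j) h
  have h2 := fun l => congrArg (fun w : Q4 => ∑ j, qfield l q j * w j) h
  have hn := (qnsq_pos hq).ne'
  simp only [Pi.add_apply, Pi.smul_apply, Finset.sum_apply, smul_eq_mul, mul_add,
    Finset.mul_sum, Finset.sum_add_distrib, Pi.zero_apply, mul_zero, Finset.sum_const_zero] at h1 h2
  constructor
  · rw [Finset.sum_comm (γ := Fin 4) (α := Fin 3)] at h1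
    simp only [mul_left_comm (q _) (c _), ← Finset.mul_sum, qfield_orth, mul_zero,
      Finset.sum_const_zero, add_zero, mul_left_comm (q _) r] at h1
    simpa [show ∑ i, q i * q i = qnsq q from rfl, hn] using h1
  · intro l
    have h3 := h2 l
    rw [Finset.sum_comm (γ := Fin 4) (α := Fin 3)] at h3
    simp only [mul_left_comm (qfield _ _ _) (c _), ← Finset.mul_sum, qfield_ortho,
      mul_left_comm (qfield _ _ _) r] at h3
    have h4 : ∑ i, qfield l q i * q i = 0 := by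
      rw [← qfield_orth l q]; exact Finset.sum_congr rfl fun i _ => mul_comm _ _
    simpa [h4, hn] using h3

lemma gModel_indep {y : Q4 × Q4} (h1 : y.1 ≠ 0) (h2 : y.2 ≠ 0) (G : Fin 3) :
    LinearIndependent ℝ fun a => gModel G a y := by
  rw [Fintype.linearIndependent_iff]
  intro c hc
  rw [Fin.sum_univ_succ, sum_six] at hc
  simp only [show ∀ i : Fin 6, gModel G i.succ y = gLin i y from fun i => by simp [gModel]] at hc
  have hc1 := congrArg Prod.fst hc
  have hc2 := congrArg Prod.snd hc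
  simp [gModel, gLin_lk0, gLin_lk1, Prod.fst_sum, Prod.snd_sum, qdir, smul_smul] at hc1 hc2
  obtain ⟨e1, f1⟩ := qfield_indep h1 hc1
  obtain ⟨e2, f2⟩ := qfield_indep h2 hc2
  have hc0 : c 0 = 0 := by
    have := (qlen_pos h1).ne'
    have := (qlen_pos h2).ne'
    match G with
    | 0 => simpa [gCoef, *] using e1
    | 1 => simpa [gCoef, *] using e1
    | 2 => simpa [gCoef, *] using e2
  intro a
  rcases Fin.eq_zero_or_eq_succ a with rfl | ⟨i, rfl⟩
  · exact hc0
  obtain ⟨s, k, rfl⟩ := exists_lkMk i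
  match s with
  | 0 => exact f1 k
  | 1 => exact f2 k

lemma gaugeFrame_indep {v : Pt} (hv : v ∈ chartV) (G : Fin 3) :
    LinearIndependent ℝ fun a => gaugeFrame G a v := by
  apply LinearIndependent.of_comp (fderiv ℝ (gMap G) v).toLinearMap
  have : ((fderiv ℝ (gMap G) v).toLinearMap ∘ fun a => gaugeFrame G a v) =
      fun a => gModel G a (gMap G v) := funext fun a => fderiv_gMap_gauge hv G a
  rw [this]
  exact gModel_indep (gMap_ne_zero hv G).1 (gMap_ne_zero hv G).2 G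

lemma fderiv_gMap_injective {v : Pt} (hv : v ∈ chartV) (G : Fin 3) :
    Function.Injective (fderiv ℝ (gMap G) v) := by
  refine (injective_iff_map_eq_zero _).2 fun w hw => ?_
  have hsp := (gaugeFrame_indep hv G).span_eq_top_of_card_eq_finrank (by simp)
  obtain ⟨c, rfl⟩ := (Submodule.mem_span_range_iff_exists_fun ℝ).1
    (hsp ▸ Submodule.mem_top : w ∈ Submodule.span ℝ (Set.range fun a => gaugeFrame G a v))
  simp only [map_sum, map_smul, fderiv_gMap_gauge hv] at hw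
  have := Fintype.linearIndependent_iff.1
    (gModel_indep (gMap_ne_zero hv G).1 (gMap_ne_zero hv G).2 G) c hw
  simp [this]

end Chart

namespace Chart

/-! ### Brackets and smoothness -/

lemma bracket_of_related {Y : Type*} [NormedAddCommGroup Y] [NormedSpace ℝ Y] {Φ : Pt → Y}
    {x : Pt} {E1 E2 : Pt → Pt} {F1 F2 : Y → Y} (hΦ : ContDiffAt ℝ ∞ Φ x)
    (hE1 : DifferentiableAt ℝ E1 x) (hE2 : DifferentiableAt ℝ E2 x)
    (hF1 : DifferentiableAt ℝ F1 (Φ x)) (hF2 : DifferentiableAt ℝ F2 (Φ x))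
    (h1 : ∀ᶠ z in nhds x, fderiv ℝ Φ z (E1 z) = F1 (Φ z))
    (h2 : ∀ᶠ z in nhds x, fderiv ℝ Φ z (E2 z) = F2 (Φ z)) :
    fderiv ℝ Φ x (fderiv ℝ E2 x (E1 x) - fderiv ℝ E1 x (E2 x)) =
      fderiv ℝ F2 (Φ x) (F1 (Φ x)) - fderiv ℝ F1 (Φ x) (F2 (Φ x)) := by
  have hD : DifferentiableAt ℝ (fderiv ℝ Φ) x :=
    (hΦ.fderiv_right (m := 1) (WithTop.coe_le_coe.2 le_top)).differentiableAt (by simp)
  have hd : DifferentiableAt ℝ Φ x := hΦ.differentiableAt (by simp)
  have key : ∀ (E : Pt → Pt) (F : Y → Y), DifferentiableAt ℝ E x → DifferentiableAt ℝ F (Φ x) →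
      (∀ᶠ z in nhds x, fderiv ℝ Φ z (E z) = F (Φ z)) → ∀ w,
      fderiv ℝ Φ x (fderiv ℝ E x w) + fderiv ℝ (fderiv ℝ Φ) x w (E x) =
        fderiv ℝ F (Φ x) (fderiv ℝ Φ x w) := by
    intro E F hE hF h w
    have e1 := (hD.hasFDerivAt.clm_apply hE.hasFDerivAt).fderiv
    have e2 : fderiv ℝ (fun z => fderiv ℝ Φ z (E z)) x = fderiv ℝ (F ∘ Φ) x :=
      Filter.EventuallyEq.fderiv_eq h
    rw [fderiv_comp x hF hd, e1] at e2
    simpa using congrArg (fun f : Pt →L[ℝ] Y => f w) e2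
  have k1 := key E1 F1 hE1 hF1 h1 (E2 x)
  have k2 := key E2 F2 hE2 hF2 h2 (E1 x)
  rw [h1.self_of_nhds] at k2
  rw [h2.self_of_nhds] at k1
  have hs := (hΦ.isSymmSndFDerivAt (by simp; exact WithTop.coe_le_coe.2 le_top)).eq (E1 x) (E2 x)
  rw [map_sub, ← k1, ← k2, hs]
  abel

lemma linkC_lkMk (s t u : Fin 2) (k l m : Fin 3) :
    linkC (lkMk s k) (lkMk t l) (lkMk u m) = if s = t ∧ t = u then eps3 k l m else 0 := by
  simp [linkC, lkSplit_lkMk]

lemma chartC_lk (i j k : Fin 6) : chartC (lk i) (lk j) (lk k) = linkC i j k := by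
  simp [chartC, Fin.succ_ne_zero]

lemma chartC_zero (a b d : Fin 7) (h : a = 0 ∨ b = 0 ∨ d = 0) : chartC a b d = 0 := by
  rw [chartC, dif_neg]
  tauto

lemma gLin_bracket (i j : Fin 6) (y : Q4 × Q4) :
    gLin j (gLin i y) - gLin i (gLin j y) = ∑ k, linkC i j k • gLin k y := by
  obtain ⟨s, k, rfl⟩ := exists_lkMk i
  obtain ⟨t, l, rfl⟩ := exists_lkMk j
  rw [sum_six]
  match s, t with
  | 0, 0 =>
    simp [gLin_lk0, gLin_lk1, linkC_lkMk, Prod.ext_iff, Prod.fst_sum, Prod.snd_sum,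
      qfield_bracket]
  | 0, 1 => simp [gLin_lk0, gLin_lk1, linkC_lkMk, qfield_zero]
  | 1, 0 => simp [gLin_lk0, gLin_lk1, linkC_lkMk, qfield_zero]
  | 1, 1 =>
    simp [gLin_lk0, gLin_lk1, linkC_lkMk, Prod.ext_iff, Prod.fst_sum, Prod.snd_sum,
      qfield_bracket]

lemma hasFDerivAt_gModel_zero {y : Q4 × Q4} (h1 : y.1 ≠ 0) (h2 : y.2 ≠ 0) (G : Fin 3) :
    HasFDerivAt (gModel G 0)
      (((gCoef G).1 • (fderiv ℝ qdir y.1).comp (ContinuousLinearMap.fst ℝ Q4 Q4)).prod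
        ((gCoef G).2 • (fderiv ℝ qdir y.2).comp (ContinuousLinearMap.snd ℝ Q4 Q4))) y :=
  (((hasFDerivAt_qdir h1).differentiableAt.hasFDerivAt.comp y hasFDerivAt_fst).const_smul
    (gCoef G).1).prodMk
    (((hasFDerivAt_qdir h2).differentiableAt.hasFDerivAt.comp y hasFDerivAt_snd).const_smul
      (gCoef G).2)

lemma fderiv_qdir_qfield {q : Q4} (hq : q ≠ 0) (k : Fin 3) :
    fderiv ℝ qdir q (qfield k q) = qfield k (qdir q) := by
  rw [fderiv_qdir_apply hq, qfield_orth, mul_zero, zero_smul, sub_zero, qdir, qfield_smul]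

lemma gModel_radial_lk {y : Q4 × Q4} (h1 : y.1 ≠ 0) (h2 : y.2 ≠ 0) (G : Fin 3) (i : Fin 6) :
    fderiv ℝ (gModel G 0) y (gLin i y) = gLin i (gModel G 0 y) := by
  rw [(hasFDerivAt_gModel_zero h1 h2 G).fderiv]
  obtain ⟨s, k, rfl⟩ := exists_lkMk i
  match s with
  | 0 => simp [gModel, gLin_lk0, fderiv_qdir_qfield h1, qfield_smul]
  | 1 => simp [gModel, gLin_lk1, fderiv_qdir_qfield h2, qfield_smul]

lemma differentiableAt_gModel {y : Q4 × Q4} (h1 : y.1 ≠ 0) (h2 : y.2 ≠ 0) (G : Fin 3)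
    (a : Fin 7) : DifferentiableAt ℝ (gModel G a) y := by
  rcases Fin.eq_zero_or_eq_succ a with rfl | ⟨i, rfl⟩
  · exact (hasFDerivAt_gModel_zero h1 h2 G).differentiableAt
  · rw [show gModel G i.succ = ⇑(gLin i) from gModel_lk G i]
    exact (gLin i).differentiableAt

lemma gModel_bracket {y : Q4 × Q4} (h1 : y.1 ≠ 0) (h2 : y.2 ≠ 0) (G : Fin 3) (a b : Fin 7) :
    fderiv ℝ (gModel G b) y (gModel G a y) - fderiv ℝ (gModel G a) y (gModel G b y) =
      ∑ d, chartC a b d • gModel G d y := by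
  rcases Fin.eq_zero_or_eq_succ a with rfl | ⟨i, rfl⟩ <;>
    rcases Fin.eq_zero_or_eq_succ b with rfl | ⟨j, rfl⟩
  · simp [chartC_zero]
  · rw [show gModel G j.succ = ⇑(gLin j) from gModel_lk G j, (gLin j).fderiv,
      gModel_radial_lk h1 h2]
    simp [chartC_zero]
  · rw [show gModel G i.succ = ⇑(gLin i) from gModel_lk G i, (gLin i).fderiv,
      gModel_radial_lk h1 h2]
    simp [chartC_zero]
  · rw [show gModel G i.succ = ⇑(gLin i) from gModel_lk G i,
      show gModel G j.succ = ⇑(gLin j) from gModel_lk G j, (gLin i).fderiv, (gLin j).fderiv,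
      gLin_bracket, Fin.sum_univ_succ (n := 6), chartC_zero _ _ 0 (Or.inr (Or.inr rfl)),
      zero_smul, zero_add]
    exact Finset.sum_congr rfl fun k _ => by
      rw [show gModel G k.succ = ⇑(gLin k) from gModel_lk G k, chartC_lk i j k]

lemma isOpen_chartU : IsOpen chartU := isOpen_ne_fun yPartL.continuous continuous_const

lemma isOpen_chartV : IsOpen chartV :=
  (show ContinuousOn xC chartU from fun v hv =>
    (contDiffAt_xC hv).continuousAt.continuousWithinAt).isOpen_inter_preimage isOpen_chartU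
      isOpen_ne

lemma contDiffAt_qmul {f g : Pt → Q4} {v : Pt} (hf : ContDiffAt ℝ ∞ f v)
    (hg : ContDiffAt ℝ ∞ g v) : ContDiffAt ℝ ∞ (fun z => qmul (f z) (g z)) v :=
  (qmulL.contDiff.contDiffAt.comp v hf).clm_apply hg

lemma contDiffAt_qconj {f : Pt → Q4} {v : Pt} (hf : ContDiffAt ℝ ∞ f v) :
    ContDiffAt ℝ ∞ (fun z => qconj (f z)) v :=
  qconjL.contDiff.contDiffAt.comp v hf

lemma contDiffAt_qAd {f : Pt → Q4} {v : Pt} (hf : ContDiffAt ℝ ∞ f v) (h0 : f v ≠ 0)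
    (k l : Fin 3) : ContDiffAt ℝ ∞ (fun z => qAd (f z) k l) v := by
  have h1 : ContDiffAt ℝ ∞ (fun z => qmul (qmul (f z) (qunit l)) (qconj (f z))) v :=
    contDiffAt_qmul (contDiffAt_qmul hf contDiffAt_const) (contDiffAt_qconj hf)
  have h2 : ContDiffAt ℝ ∞ (fun z => qnsq (f z)) v :=
    ContDiffAt.sum fun i _ => (contDiffAt_pi.1 hf i).mul (contDiffAt_pi.1 hf i)
  exact (contDiffAt_pi.1 h1 k.succ).div h2 (qnsq_pos h0).ne'

lemma contDiffAt_blocks2 {A B C D : Pt → Matrix (Fin 3) (Fin 3) ℝ} {v : Pt}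
    (hA : ∀ k l, ContDiffAt ℝ ∞ (fun z => A z k l) v)
    (hB : ∀ k l, ContDiffAt ℝ ∞ (fun z => B z k l) v)
    (hC : ∀ k l, ContDiffAt ℝ ∞ (fun z => C z k l) v)
    (hD : ∀ k l, ContDiffAt ℝ ∞ (fun z => D z k l) v) (i j : Fin 6) :
    ContDiffAt ℝ ∞ (fun z => blocks2 (A z) (B z) (C z) (D z) i j) v := by
  simp only [blocks2]
  split_ifs
  exacts [hA _ _, hB _ _, hC _ _, hD _ _]

lemma contDiffAt_gaugeL {v : Pt} (hv : v ∈ chartV) (G : Fin 3) (i j : Fin 6) :
    ContDiffAt ℝ ∞ (fun z => gaugeL G z i j) v ∧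
      ContDiffAt ℝ ∞ (fun z => gaugeLinv G z i j) v := by
  have hx := contDiffAt_qAd (contDiffAt_xC hv.1) hv.2
  have ht := contDiffAt_qAd (contDiffAt_thC hv.1) (thC_ne_zero hv.1)
  have h0 : ∀ k l : Fin 3, ContDiffAt ℝ ∞ (fun _ : Pt => (0 : Matrix (Fin 3) (Fin 3) ℝ) k l) v :=
    fun _ _ => contDiffAt_const
  match G with
  | 0 => exact ⟨contDiffAt_const, contDiffAt_const⟩
  | 1 =>
    exact ⟨contDiffAt_blocks2 (fun k l => (hx k l).neg) hx (fun k l => (hx k l).neg) h0 i j,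
      contDiffAt_blocks2 h0 (fun k l => (hx l k).neg) (fun k l => hx l k)
        (fun k l => (hx l k).neg) i j⟩
  | 2 =>
    exact ⟨contDiffAt_blocks2 h0 (fun k l => (ht k l).neg) ht (fun k l => (ht k l).neg) i j,
      contDiffAt_blocks2 (fun k l => (ht l k).neg) (fun k l => ht l k)
        (fun k l => (ht l k).neg) h0 i j⟩

lemma contDiffAt_liftVec {f g : Pt → Q4} {v : Pt} (hv : v ∈ chartU)
    (hf : ContDiffAt ℝ ∞ f v) (hg : ContDiffAt ℝ ∞ g v) :
    ContDiffAt ℝ ∞ (fun z => liftVec z (f z) (g z)) v := by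
  have hw : ContDiffAt ℝ ∞ (fun z => qlen (yPart z) • (f z 0 • thC z + g z)) v :=
    ((contDiffAt_qlen hv).comp v yPartL.contDiff.contDiffAt).smul
      (((contDiffAt_pi.1 hf 0).smul (contDiffAt_thC hv)).add hg)
  refine contDiffAt_pi.2 fun i => ?_
  fin_cases i
  · exact contDiffAt_pi.1 hw 0
  · exact contDiffAt_pi.1 hw 1
  · exact contDiffAt_pi.1 hw 2
  · exact contDiffAt_pi.1 hw 3
  · exact contDiffAt_pi.1 hf 1
  · exact contDiffAt_pi.1 hf 2
  · exact contDiffAt_pi.1 hf 3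

lemma contDiffAt_baseFrame {v : Pt} (hv : v ∈ chartV) (a : Fin 7) :
    ContDiffAt ℝ ∞ (baseFrame a) v := by
  rcases Fin.eq_zero_or_eq_succ a with rfl | ⟨i, rfl⟩
  · exact contDiffAt_liftVec hv.1
      (((contDiffAt_rad hv).inv (qlen_pos hv.2).ne').smul (contDiffAt_xC hv.1)) contDiffAt_const
  obtain ⟨s, k, rfl⟩ := exists_lkMk i
  match s with
  | 0 =>
    rw [funext fun z => baseFrame_lk0 k z]
    exact contDiffAt_liftVec hv.1
      ((qfieldL k).contDiff.contDiffAt.comp v (contDiffAt_xC hv.1)) contDiffAt_const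
  | 1 =>
    rw [funext fun z => baseFrame_lk1 k z]
    exact contDiffAt_liftVec hv.1 contDiffAt_const
      ((qfieldL k).contDiff.contDiffAt.comp v (contDiffAt_thC hv.1))

lemma contDiffAt_gaugeFrame {v : Pt} (hv : v ∈ chartV) (G : Fin 3) (a : Fin 7) :
    ContDiffAt ℝ ∞ (gaugeFrame G a) v := by
  rcases Fin.eq_zero_or_eq_succ a with rfl | ⟨i, rfl⟩
  · exact contDiffAt_baseFrame hv 0
  refine ContDiffAt.congr_of_eventuallyEq (ContDiffAt.sum fun j (_ : j ∈ Finset.univ) =>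
    (contDiffAt_gaugeL hv G j i).2.smul (contDiffAt_baseFrame hv (lk j))) ?_
  filter_upwards [isOpen_chartV.mem_nhds hv] with z hz using gaugeFrame_lk G i hz

lemma contDiffAt_gMap {v : Pt} (hv : v ∈ chartU) (G : Fin 3) : ContDiffAt ℝ ∞ (gMap G) v := by
  have hx := contDiffAt_xC hv
  have ht := contDiffAt_thC hv
  match G with
  | 0 => exact hx.prodMk ht
  | 1 => exact (contDiffAt_qmul ht (contDiffAt_qconj hx)).prodMk (contDiffAt_qconj hx)
  | 2 => exact (contDiffAt_qconj ht).prodMk (contDiffAt_qmul hx (contDiffAt_qconj ht))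

/-! ### Coframes -/

/-- The coframe of the base gauge as linear forms. -/
def cfL (v : Pt) (i : Fin 6) : Pt →L[ℝ] ℝ :=
  if (lkSplit i).1 = 0 then
    (4 / qnsq (xC v)) • (qdotL (qfield (lkSplit i).2 (xC v))).comp (fderiv ℝ xC v)
  else (4 : ℝ) • (qdotL (qfield (lkSplit i).2 (thC v))).comp (fderiv ℝ thC v)

lemma baseCoframe_eq (v a : Pt) (i : Fin 6) : baseCoframe v a i = cfL v i a := by
  simp only [baseCoframe, cfL]
  split_ifs <;> simp [qdotL_apply, div_mul_eq_mul_div]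

/-- The coframe of a gauge as linear forms. -/
def gcfL (G : Fin 3) (v : Pt) (k : Fin 6) : Pt →L[ℝ] ℝ := ∑ j, gaugeL G v k j • cfL v j

lemma gcfL_apply (G : Fin 3) (v a : Pt) (k : Fin 6) :
    (gaugeL G v *ᵥ baseCoframe v a) k = gcfL G v k a := by
  simp [gcfL, Matrix.mulVec, dotProduct, baseCoframe_eq]

lemma cfL_base {v : Pt} (hv : v ∈ chartV) (j i : Fin 6) :
    cfL v j (baseFrame 0 v) = 0 ∧ cfL v j (baseFrame (lk i) v) = if j = i then 1 else 0 := by
  obtain ⟨s, k, rfl⟩ := exists_lkMk j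
  obtain ⟨t, l, rfl⟩ := exists_lkMk i
  obtain ⟨⟨hx, ht⟩, ⟨hx0, ht0⟩, hx1, ht1⟩ := deriv_base hv.1 l
  have hn := (qnsq_pos hv.2).ne'
  have hsw : ∀ q : Q4, ∑ i, qfield k q i * q i = 0 := fun q => by
    rw [← qfield_orth k q]; exact Finset.sum_congr rfl fun i _ => mul_comm _ _
  match s, t with
  | 0, 0 => simp [cfL, lkSplit_lkMk, qdotL_apply, hx, hx0, qfield_ortho, lkMk_inj,
      mul_left_comm _ (rad v)⁻¹, ← Finset.mul_sum, hsw, hn]
  | 0, 1 => simp [cfL, lkSplit_lkMk, qdotL_apply, hx, hx1, lkMk_inj,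
      mul_left_comm _ (rad v)⁻¹, ← Finset.mul_sum, hsw]
  | 1, 0 => simp [cfL, lkSplit_lkMk, qdotL_apply, ht, ht0, lkMk_inj]
  | 1, 1 => simp [cfL, lkSplit_lkMk, qdotL_apply, ht, ht1, qfield_ortho, lkMk_inj,
      qnsq_thC hv.1]

lemma gcfL_frame {v : Pt} (hv : v ∈ chartV) (G : Fin 3) (k i : Fin 6) :
    gcfL G v k (gaugeFrame G 0 v) = 0 ∧
      gcfL G v k (gaugeFrame G (lk i) v) = if k = i then 1 else 0 := by
  refine ⟨by simp [gcfL, gaugeFrame_zero, fun j => (cfL_base hv j 0).1], ?_⟩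
  rw [gaugeFrame_lk G i hv]
  simp [gcfL, fun j l => (cfL_base hv j l).2]
  rw [show ∑ j, gaugeLinv G v j i * gaugeL G v k j = (gaugeL G v * gaugeLinv G v) k i by
    simp [Matrix.mul_apply, mul_comm], gaugeL_mul_inv hv, Matrix.one_apply]

lemma fderiv_rad_base {v : Pt} (hv : v ∈ chartV) :
    fderiv ℝ rad v (baseFrame 0 v) = 1 ∧
      ∀ i : Fin 6, fderiv ℝ rad v (baseFrame (lk i) v) = 0 := by
  have hr : (rad v) ≠ 0 := (qlen_pos hv.2).ne'
  have hsq : rad v ^ 2 = qnsq (xC v) := qlen_sq (xC v)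
  constructor
  · rw [fderiv_rad_apply hv, (deriv_base hv.1 0).1.1]
    simp only [Pi.smul_apply, smul_eq_mul, mul_left_comm _ (rad v)⁻¹, ← Finset.mul_sum]
    rw [show ∑ i, xC v i * xC v i = qnsq (xC v) from rfl, ← hsq]
    field_simp
  · intro i
    obtain ⟨s, k, rfl⟩ := exists_lkMk i
    obtain ⟨-, ⟨hx0, -⟩, hx1, -⟩ := deriv_base hv.1 k
    rw [fderiv_rad_apply hv]
    match s with
    | 0 => rw [hx0, qfield_orth, mul_zero]
    | 1 => simp [hx1]

lemma eq_zero_of_coframe {v : Pt} (hv : v ∈ chartV) (G : Fin 3) {a : Pt}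
    (hr : fderiv ℝ rad v a = 0) (hw : ∀ k, gcfL G v k a = 0) : a = 0 := by
  obtain ⟨c, hc⟩ := (Submodule.mem_span_range_iff_exists_fun ℝ).1
    (((gaugeFrame_indep hv G).span_eq_top_of_card_eq_finrank (by simp)) ▸ Submodule.mem_top :
      a ∈ Submodule.span ℝ (Set.range fun b => gaugeFrame G b v))
  rw [Fin.sum_univ_succ] at hc
  rw [← hc] at hr hw
  have h1 : ∀ i : Fin 6, fderiv ℝ rad v (gaugeFrame G i.succ v) = 0 := fun i => by
    rw [show (i.succ : Fin 7) = lk i from rfl, gaugeFrame_lk G i hv]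
    simp [(fderiv_rad_base hv).2]
  have c0 : c 0 = 0 := by simpa [h1, gaugeFrame_zero, (fderiv_rad_base hv).1] using hr
  have ci : ∀ i : Fin 6, c i.succ = 0 := fun i => by
    simpa [c0, fun k l => (gcfL_frame hv G k l).2] using hw i
  rw [← hc]
  simp [c0, ci]

lemma clm_eq_sum (f : Pt →L[ℝ] ℝ) (a : Pt) : f a = ∑ i, f (Pi.single i 1) * a i := by
  conv_lhs => rw [pi_eq_sum_univ' a]
  simp [mul_comm]

lemma sum_comm4 (T : Fin 7 → Fin 7 → Fin 6 → Fin 6 → ℝ) :
    ∑ i, ∑ j, ∑ k, ∑ l, T i j k l = ∑ k, ∑ l, ∑ i, ∑ j, T i j k l :=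
  calc _ = ∑ i, ∑ k, ∑ j, ∑ l, T i j k l := Finset.sum_congr rfl fun _ _ => Finset.sum_comm
    _ = ∑ k, ∑ i, ∑ j, ∑ l, T i j k l := Finset.sum_comm
    _ = ∑ k, ∑ i, ∑ l, ∑ j, T i j k l :=
      Finset.sum_congr rfl fun _ _ => Finset.sum_congr rfl fun _ _ => Finset.sum_comm
    _ = _ := Finset.sum_congr rfl fun _ _ => Finset.sum_comm

/-- A metric given by linear forms, evaluated on two vectors. -/
lemma gaugeMetric_eval (G : Fin 3) (M : ℝ → Matrix (Fin 6) (Fin 6) ℝ) (v a b : Pt) :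
    ∑ i, ∑ j, gaugeMetric G M v i j * a i * b j =
      fderiv ℝ rad v a * fderiv ℝ rad v b +
        ∑ k, ∑ l, M (rad v) k l * gcfL G v k a * gcfL G v l b := by
  simp only [gaugeMetric, gcfL_apply, add_mul, Finset.sum_add_distrib, Finset.sum_mul,
    clm_eq_sum _ a, clm_eq_sum _ b, Finset.mul_sum]
  congr 1
  · rw [Finset.sum_comm]
    exact Finset.sum_congr rfl fun _ _ => Finset.sum_congr rfl fun _ _ => by ring
  · rw [sum_comm4]
    refine Finset.sum_congr rfl fun k _ => Finset.sum_congr rfl fun l _ => ?_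
    rw [Finset.sum_comm]
    exact Finset.sum_congr rfl fun _ _ => Finset.sum_congr rfl fun _ _ => by ring

end Chart

theorem chartU_isOpen : IsOpen chartU := by
  exact Chart.isOpen_chartU

theorem chartU_connected : IsConnected chartU := by
  set j : Q4 × (Fin 3 → ℝ) → Pt := fun p =>
    ![p.1 0, p.1 1, p.1 2, p.1 3, p.2 0, p.2 1, p.2 2] with hj
  have hjc : Continuous j := by
    refine continuous_pi fun i => ?_
    fin_cases i <;> simp [hj] <;> fun_prop
  have himg : chartU = j '' (({0}ᶜ : Set Q4) ×ˢ Set.univ) := by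
    ext v
    constructor
    · intro hv
      refine ⟨(yPart v, ![v 4, v 5, v 6]), ⟨hv, trivial⟩, ?_⟩
      ext i
      fin_cases i <;> rfl
    · rintro ⟨⟨y, z⟩, ⟨hy, -⟩, rfl⟩
      have : yPart (j (y, z)) = y := by
        ext i
        fin_cases i <;> rfl
      show yPart (j (y, z)) ≠ 0
      rw [this]
      exact hy
  rw [himg]
  exact ((isConnected_compl_singleton_of_one_lt_rank (by simp) 0).prod isConnected_univ).image j
    hjc.continuousOn

theorem chart_contDiffOn :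
    ContDiffOn ℝ ∞ xC chartU ∧ ContDiffOn ℝ ∞ thC chartU ∧ ContDiffOn ℝ ∞ rad chartV := by
  exact ⟨fun v hv => (Chart.contDiffAt_xC hv).contDiffWithinAt,
    fun v hv => (Chart.contDiffAt_thC hv).contDiffWithinAt,
    fun v hv => (Chart.contDiffAt_rad hv).contDiffWithinAt⟩

theorem gaugeFrame_isFrame (G : Fin 3) : IsFrame chartV (gaugeFrame G) chartC := by
  refine ⟨Chart.isOpen_chartV,
    fun a v hv => (Chart.contDiffAt_gaugeFrame hv G a).contDiffWithinAt,
    fun v hv => Chart.gaugeFrame_indep hv G, fun a b v hv => ?_⟩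
  apply Chart.fderiv_gMap_injective hv G
  obtain ⟨h1, h2⟩ := Chart.gMap_ne_zero hv G
  have hev : ∀ c, ∀ᶠ z in nhds v,
      fderiv ℝ (Chart.gMap G) z (gaugeFrame G c z) = Chart.gModel G c (Chart.gMap G z) := fun c =>
    Filter.eventually_of_mem (Chart.isOpen_chartV.mem_nhds hv)
      fun z hz => Chart.fderiv_gMap_gauge hz G c
  rw [Chart.bracket_of_related (Chart.contDiffAt_gMap hv.1 G)
    ((Chart.contDiffAt_gaugeFrame hv G a).differentiableAt (by simp))
    ((Chart.contDiffAt_gaugeFrame hv G b).differentiableAt (by simp))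
    (Chart.differentiableAt_gModel h1 h2 G a) (Chart.differentiableAt_gModel h1 h2 G b)
    (hev a) (hev b), Chart.gModel_bracket h1 h2, map_sum]
  simp only [map_smul, Chart.fderiv_gMap_gauge hv]

theorem gaugeFrame_rad (G : Fin 3) {v : Pt} (hv : v ∈ chartV) (a : Fin 7) :
    dirD (gaugeFrame G a) rad v = if a = 0 then 1 else 0 := by
  rcases Fin.eq_zero_or_eq_succ a with rfl | ⟨i, rfl⟩
  · rw [if_pos rfl, dirD, Chart.gaugeFrame_zero]
    exact (Chart.fderiv_rad_base hv).1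
  · rw [if_neg (Fin.succ_ne_zero i), dirD, show (i.succ : Fin 7) = lk i from rfl,
      Chart.gaugeFrame_lk G i hv]
    simp [(Chart.fderiv_rad_base hv).2]

/-- Away from the core a gauge metric is a warped metric in its own frame. -/
theorem gaugeMetric_isWarped (G : Fin 3) {W : Set Pt} (hW : IsOpen W) (hWV : W ⊆ chartV)
    {M : ℝ → Matrix (Fin 6) (Fin 6) ℝ}
    (hM : ∀ v ∈ W, ∀ i j, ContDiffAt ℝ ∞ (fun s => M s i j) (rad v))
    (hsym : ∀ s, (M s).IsSymm) (hpos : ∀ v ∈ W, (M (rad v)).PosDef) :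
    IsWarped W (gaugeMetric G M) (gaugeFrame G) rad M linkC chartC := by
  have hfr := gaugeFrame_isFrame G
  have hcomp : ∀ v, ∀ a b, frameComp (gaugeMetric G M) (gaugeFrame G) v a b =
      dirD (gaugeFrame G a) rad v * dirD (gaugeFrame G b) rad v +
        ∑ k, ∑ l, M (rad v) k l * Chart.gcfL G v k (gaugeFrame G a v) *
          Chart.gcfL G v l (gaugeFrame G b v) := fun v a b => Chart.gaugeMetric_eval G M v _ _
  refine
    { frame := ⟨hW, fun a => (hfr.smooth a).mono hWV, fun x hx => hfr.indep x (hWV hx),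
        fun a b x hx => hfr.bracket a b x (hWV hx)⟩
      smoothG := fun i j v hv => ?_
      posDef := fun v hv => ?_
      smoothR := fun v hv => (Chart.contDiffAt_rad (hWV hv)).contDiffWithinAt
      dirR := fun x hx a => gaugeFrame_rad G (hWV hx) a
      comp00 := fun x hx => ?_
      comp0 := fun x hx i => ?_
      comp := fun x hx i j => ?_
      smoothM := hM
      symmM := hsym
      c_link := Chart.chartC_lk
      c_zero := Chart.chartC_zero
      anti := fun i j k => ?_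
      unimodular := fun i => ?_ }
  · have hv' := hWV hv
    have hd : ∀ {f : Pt → ℝ}, ContDiffAt ℝ ∞ f v → ∀ w : Pt,
        ContDiffAt ℝ ∞ (fun z => fderiv ℝ f z w) v := fun hf w =>
      (hf.fderiv_right (m := ∞) le_rfl).clm_apply contDiffAt_const
    have hcf : ∀ k w, ContDiffAt ℝ ∞ (fun z => baseCoframe z w k) v := by
      intro k w
      have hxw : ContDiffAt ℝ ∞ (fun z => fderiv ℝ xC z w) v :=
        ((Chart.contDiffAt_xC hv'.1).fderiv_right (m := ∞) le_rfl).clm_apply contDiffAt_const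
      have htw : ContDiffAt ℝ ∞ (fun z => fderiv ℝ thC z w) v :=
        ((Chart.contDiffAt_thC hv'.1).fderiv_right (m := ∞) le_rfl).clm_apply contDiffAt_const
      have hx := Chart.contDiffAt_xC hv'.1
      simp only [baseCoframe]
      split_ifs
      · refine (contDiffAt_const.mul (ContDiffAt.sum fun j _ => ?_)).div
          (ContDiffAt.sum fun j _ => (contDiffAt_pi.1 hx j).mul (contDiffAt_pi.1 hx j))
          (Chart.qnsq_pos hv'.2).ne'
        exact (contDiffAt_pi.1 ((Chart.qfieldL _).contDiff.contDiffAt.comp v hx) j).mul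
          (contDiffAt_pi.1 hxw j)
      · refine contDiffAt_const.mul (ContDiffAt.sum fun j _ => ?_)
        exact (contDiffAt_pi.1 ((Chart.qfieldL _).contDiff.contDiffAt.comp v
          (Chart.contDiffAt_thC hv'.1)) j).mul (contDiffAt_pi.1 htw j)
    have hw : ∀ k w, ContDiffAt ℝ ∞ (fun z => (gaugeL G z *ᵥ baseCoframe z w) k) v := fun k w =>
      by simpa only [Matrix.mulVec, dotProduct] using
        ContDiffAt.sum (s := Finset.univ) fun j _ =>
          (Chart.contDiffAt_gaugeL hv' G k j).1.mul (hcf j w)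
    exact ((hd (Chart.contDiffAt_rad hv') _).mul (hd (Chart.contDiffAt_rad hv') _)).add
      (ContDiffAt.sum fun k _ => ContDiffAt.sum fun l _ =>
        (((hM v hv k l).comp v (Chart.contDiffAt_rad hv')).mul (hw k _)).mul (hw l _))
        |>.contDiffWithinAt
  · have hH : (gaugeMetric G M v).IsHermitian := by
      ext i j
      simp only [Matrix.conjTranspose_apply, star_trivial, gaugeMetric]
      rw [mul_comm (fderiv ℝ rad v (Pi.single j 1)), Finset.sum_comm]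
      congr 1
      refine Finset.sum_congr rfl fun k _ => Finset.sum_congr rfl fun l _ => ?_
      rw [(hsym (rad v)).apply k l]
      ring
    refine Matrix.PosDef.of_dotProduct_mulVec_pos hH fun a ha => ?_
    have e : star a ⬝ᵥ (gaugeMetric G M v *ᵥ a) =
        ∑ i, ∑ j, gaugeMetric G M v i j * a i * a j := by
      simp only [dotProduct, Matrix.mulVec, star_trivial, Finset.mul_sum]
      exact Finset.sum_congr rfl fun _ _ => Finset.sum_congr rfl fun _ _ => by ring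
    rw [e, Chart.gaugeMetric_eval]
    set w : Fin 6 → ℝ := fun k => Chart.gcfL G v k a with hw
    have e2 : ∑ k, ∑ l, M (rad v) k l * w k * w l = star w ⬝ᵥ (M (rad v) *ᵥ w) := by
      simp only [dotProduct, Matrix.mulVec, star_trivial, Finset.mul_sum]
      exact Finset.sum_congr rfl fun _ _ => Finset.sum_congr rfl fun _ _ => by ring
    rw [e2]
    by_cases hw0 : w = 0
    · have hr : fderiv ℝ rad v a ≠ 0 := fun hr =>
        ha (Chart.eq_zero_of_coframe (hWV hv) G hr (congrFun hw0))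
      rw [hw0]
      simpa using mul_self_pos.2 hr
    · exact add_pos_of_nonneg_of_pos (mul_self_nonneg _) ((hpos v hv).dotProduct_mulVec_pos hw0)
  · rw [hcomp]
    simp [gaugeFrame_rad G (hWV hx), fun k => (Chart.gcfL_frame (hWV hx) G k 0).1]
  · rw [hcomp]
    simp [gaugeFrame_rad G (hWV hx), Fin.succ_ne_zero,
      fun k => (Chart.gcfL_frame (hWV hx) G k 0).1]
  · rw [hcomp]
    simp [gaugeFrame_rad G (hWV hx), Fin.succ_ne_zero,
      fun k l => (Chart.gcfL_frame (hWV hx) G k l).2]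
  · obtain ⟨s, a, rfl⟩ := Chart.exists_lkMk i
    obtain ⟨t, b, rfl⟩ := Chart.exists_lkMk j
    obtain ⟨u, c, rfl⟩ := Chart.exists_lkMk k
    fin_cases s <;> fin_cases t <;> fin_cases u <;> simp [Chart.linkC_lkMk] <;>
      fin_cases a <;> fin_cases b <;> fin_cases c <;> simp [eps3]
  · obtain ⟨s, a, rfl⟩ := Chart.exists_lkMk i
    have he : ∀ b, eps3 a b b = 0 := fun b => by
      fin_cases a <;> fin_cases b <;> simp [eps3]
    simp [Chart.sum_six, Chart.linkC_lkMk, he]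

/-- Flat-core form of the metric. -/
theorem gaugeMetric_core {M : ℝ → Matrix (Fin 6) (Fin 6) ℝ} {β : ℝ} {v : Pt} (hv : v ∈ chartV)
    (hM : M (rad v) = adInv !![rad v ^ 2 / 4, 0; 0, β / 4]) :
    gaugeMetric 0 M v = coreMetric β v := by
  ext i j
  have hr : rad v ≠ 0 := (Chart.qlen_pos hv.2).ne'
  have hsq : rad v ^ 2 = qnsq (xC v) := Chart.qlen_sq (xC v)
  have px := Chart.qfield_parseval (xC v) (fderiv ℝ xC v (Pi.single i 1))
    (fderiv ℝ xC v (Pi.single j 1))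
  have pt := Chart.qfield_parseval (thC v) (fderiv ℝ thC v (Pi.single i 1))
    (fderiv ℝ thC v (Pi.single j 1))
  rw [Chart.qnsq_thC hv.1, Chart.thC_dot_fderiv hv.1, Chart.thC_dot_fderiv hv.1] at pt
  simp only [gaugeMetric, coreMetric, hM, gaugeL, Matrix.one_mulVec, Chart.fderiv_rad_apply hv,
    Chart.sum_six, adInv, Chart.lkSplit_lkMk, baseCoframe]
  simp [← hsq, Fin.sum_univ_three, Fin.sum_univ_four] at px pt ⊢
  field_simp
  linear_combination -px - β * rad v ^ 2 * pt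

/-- An Ad-invariant inverse Gram matrix with the symmetric parameters. -/
def triQ (p : Fin 3 → ℝ) (G : Fin 3) : Matrix (Fin 2) (Fin 2) ℝ :=
  !![p (G + 1) + p G, p G; p G, p (G + 2) + p G]

/-- The same Ad-invariant metric in any two gauges. -/
theorem gaugeMetric_triQ (p : ℝ → Fin 3 → ℝ) (G : Fin 3) {v : Pt} (hv : v ∈ chartV)
    (hp : ∀ k, 0 ≤ p (rad v) k)
    (hdet : 0 < p (rad v) 0 * p (rad v) 1 + p (rad v) 1 * p (rad v) 2 + p (rad v) 2 * p (rad v) 0) :
    gaugeMetric G (fun s => (adInv (triQ (p s) G))⁻¹) v =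
      gaugeMetric 0 (fun s => (adInv (triQ (p s) 0))⁻¹) v := by
  ext i j
  have hL := Chart.gaugeL_mul_inv hv G
  have hA := Chart.qAd_mul_transpose hv.2
  have hB := Chart.qAd_mul_transpose (Chart.thC_ne_zero hv.1)
  have hN : adInv (triQ (p (rad v)) G) =
      gaugeL G v * adInv (triQ (p (rad v)) 0) * (gaugeL G v)ᵀ := by
    rw [Chart.adInv_eq, Chart.adInv_eq]
    fin_cases G
    · simp [gaugeL]
    all_goals
      simp [gaugeL, triQ, Chart.blocks2_transpose, Chart.blocks2_mul, hA, hB, Matrix.add_mul]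
      congr 1 <;> module
  set w : Fin 7 → Fin 6 → ℝ := fun a => baseCoframe v (Pi.single a 1) with hw
  have key : ∀ (L M : Matrix (Fin 6) (Fin 6) ℝ) (u z : Fin 6 → ℝ),
      ∑ k, ∑ l, M k l * (L *ᵥ u) k * (L *ᵥ z) l = u ⬝ᵥ ((Lᵀ * M * L) *ᵥ z) := by
    intro L M u z
    rw [← Matrix.mulVec_mulVec, ← Matrix.mulVec_mulVec, Matrix.dotProduct_mulVec u,
      Matrix.vecMul_transpose]
    simp only [dotProduct, Matrix.mulVec, Finset.mul_sum, Finset.sum_mul]
    exact Finset.sum_congr rfl fun _ _ => Finset.sum_congr rfl fun _ _ =>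
      Finset.sum_congr rfl fun _ _ => Finset.sum_congr rfl fun _ _ => by ring
  simp only [gaugeMetric]
  rw [key, key, hN]
  have hu : IsUnit (gaugeL G v).det := Matrix.isUnit_det_of_right_inverse hL
  have hu' : IsUnit (gaugeL G v)ᵀ.det := by rwa [Matrix.det_transpose]
  simp [show gaugeL 0 v = 1 from rfl, Matrix.mul_inv_rev, Matrix.mul_assoc, Matrix.nonsing_inv_mul _ hu,
    Matrix.mul_nonsing_inv_cancel_left _ _ hu']

end Vale.Agent.P225
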