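import Vale.Agent.P225.Geom.Frame.Coord

/-!
P225, module A: Ricci tensor and Laplacian in a moving frame with constant structure constants.
-/

noncomputable section

namespace Vale.Agent.P225

open scoped ContDiff
open Set Matrix

/-- Derivative of a function along a vector field. -/
def dirD (X : Pt → Pt) (f : Pt → ℝ) (x : Pt) : ℝ := fderiv ℝ f x (X x)

/-- Components of the metric in a frame. -/
def frameComp (g : MetricField) (E : Fin 7 → Pt → Pt) (x : Pt) : Matrix (Fin 7) (Fin 7) ℝ :=
  fun a b => ∑ i, ∑ j, g x i j * E a x i * E b x j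

/-- Connection coefficients `∇_{E a} E b = ∑ d, frameGamma … a b d • E d` (Koszul). -/
def frameGamma (g : MetricField) (E : Fin 7 → Pt → Pt) (c : Fin 7 → Fin 7 → Fin 7 → ℝ)
    (a b d : Fin 7) (x : Pt) : ℝ :=
  (1 / 2) * ∑ e, (frameComp g E x)⁻¹ d e *
    (dirD (E a) (fun y => frameComp g E y b e) x + dirD (E b) (fun y => frameComp g E y a e) x -
      dirD (E e) (fun y => frameComp g E y a b) x +
      ∑ h, (c a b h * frameComp g E x h e - c a e h * frameComp g E x h b -
        c b e h * frameComp g E x h a))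

/-- Ricci tensor in a frame. -/
def frameRicci (g : MetricField) (E : Fin 7 → Pt → Pt) (c : Fin 7 → Fin 7 → Fin 7 → ℝ)
    (b e : Fin 7) (x : Pt) : ℝ :=
  (∑ a, dirD (E a) (frameGamma g E c b e a) x) - (∑ a, dirD (E b) (frameGamma g E c a e a) x) +
    ∑ a, ∑ d, (frameGamma g E c b e d x * frameGamma g E c a d a x -
      frameGamma g E c a e d x * frameGamma g E c b d a x - c a b d * frameGamma g E c d e a x)

/-- A frame on the open set `V` with constant structure constants `c`. -/
structure IsFrame (V : Set Pt) (E : Fin 7 → Pt → Pt) (c : Fin 7 → Fin 7 → Fin 7 → ℝ) : Prop where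
  isOpen : IsOpen V
  smooth : ∀ a, ContDiffOn ℝ ∞ (E a) V
  indep : ∀ x ∈ V, LinearIndependent ℝ fun a => E a x
  bracket : ∀ a b, ∀ x ∈ V,
    fderiv ℝ (E b) x (E a x) - fderiv ℝ (E a) x (E b x) = ∑ d, c a b d • E d x

namespace IsFrame

variable {g : MetricField} {V : Set Pt} {E : Fin 7 → Pt → Pt}
  {c : Fin 7 → Fin 7 → Fin 7 → ℝ} {x : Pt}

/-- The frame as a matrix, column `a` being `E a x`. -/
def mat (E : Fin 7 → Pt → Pt) (x : Pt) : Matrix (Fin 7) (Fin 7) ℝ := fun i a => E a x i

theorem mat_isUnit (hE : IsFrame V E c) (hx : x ∈ V) : IsUnit (mat E x) :=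
  Matrix.linearIndependent_cols_iff_isUnit.1 (hE.indep x hx)

theorem frameComp_eq (g : MetricField) (E : Fin 7 → Pt → Pt) (x : Pt) :
    frameComp g E x = (mat E x)ᵀ * g x * mat E x := by
  ext a b
  simp only [frameComp, mat, Matrix.mul_apply, Matrix.transpose_apply, Finset.sum_mul]
  rw [Finset.sum_comm]
  exact Finset.sum_congr rfl fun j _ => Finset.sum_congr rfl fun i _ => by ring

theorem frameComp_form (g : MetricField) (E : Fin 7 → Pt → Pt) (x : Pt) (a b : Fin 7) :
    frameComp g E x a b = formMap (g x) (E a x) (E b x) := (formMap_apply _ _ _).symm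

theorem frameComp_symm (hp : ∀ x ∈ V, (g x).PosDef) (hx : x ∈ V) (a b : Fin 7) :
    frameComp g E x a b = frameComp g E x b a := by
  simp only [frameComp]
  rw [Finset.sum_comm]
  exact Finset.sum_congr rfl fun i _ => Finset.sum_congr rfl fun j _ => by
    rw [metric_symm hp hx j i]; ring

theorem frameComp_det_isUnit (hE : IsFrame V E c) (hp : ∀ x ∈ V, (g x).PosDef) (hx : x ∈ V) :
    IsUnit (frameComp g E x).det := by
  rw [frameComp_eq, Matrix.det_mul, Matrix.det_mul, Matrix.det_transpose]
  exact ((((Matrix.isUnit_iff_isUnit_det _).1 (hE.mat_isUnit hx)).mul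
    (metric_det_isUnit hp hx)).mul ((Matrix.isUnit_iff_isUnit_det _).1 (hE.mat_isUnit hx)))

/-- The basis given by the frame at a point. -/
def basis (hE : IsFrame V E c) (hx : x ∈ V) : Module.Basis (Fin 7) ℝ Pt :=
  basisOfLinearIndependentOfCardEqFinrank (hE.indep x hx) (by simp)

theorem basis_apply (hE : IsFrame V E c) (hx : x ∈ V) (a : Fin 7) : hE.basis hx a = E a x := by
  simp [basis]

theorem contDiffOn_frameComp (hE : IsFrame V E c)
    (hg : ∀ i j, ContDiffOn ℝ ∞ (fun x => g x i j) V) (a b : Fin 7) :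
    ContDiffOn ℝ ∞ (fun y => frameComp g E y a b) V :=
  ContDiffOn.sum fun i _ => ContDiffOn.sum fun j _ =>
    ((hg i j).mul (contDiffOn_pi.1 (hE.smooth a) i)).mul (contDiffOn_pi.1 (hE.smooth b) j)

theorem contDiffOn_dirD (hE : IsFrame V E c) {f : Pt → ℝ} (hf : ContDiffOn ℝ ∞ f V) (a : Fin 7) :
    ContDiffOn ℝ ∞ (dirD (E a) f) V :=
  (hf.fderiv_of_isOpen hE.isOpen le_rfl).clm_apply (hE.smooth a)

theorem frameComp_posDef (hE : IsFrame V E c) (hp : ∀ x ∈ V, (g x).PosDef) (hx : x ∈ V) :
    (frameComp g E x).PosDef := by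
  rw [frameComp_eq, ← Matrix.conjTranspose_eq_transpose_of_trivial]
  exact (hp x hx).conjTranspose_mul_mul_same
    (Matrix.mulVec_injective_iff_isUnit.2 (hE.mat_isUnit hx))

theorem contDiffOn_frameGamma (hE : IsFrame V E c)
    (hg : ∀ i j, ContDiffOn ℝ ∞ (fun x => g x i j) V) (hp : ∀ x ∈ V, (g x).PosDef)
    (a b d : Fin 7) : ContDiffOn ℝ ∞ (frameGamma g E c a b d) V := by
  unfold frameGamma
  have hc := hE.contDiffOn_frameComp hg
  exact contDiffOn_const.mul (ContDiffOn.sum fun e _ =>
    (contDiffOn_inv_metric (g := fun y => frameComp g E y) hc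
      (fun y hy => hE.frameComp_posDef hp hy) d e).mul
      ((((hE.contDiffOn_dirD (hc b e) a).add (hE.contDiffOn_dirD (hc a e) b)).sub
        (hE.contDiffOn_dirD (hc a b) e)).add (ContDiffOn.sum fun h _ =>
          (((contDiffOn_const.mul (hc h e)).sub (contDiffOn_const.mul (hc h b))).sub
            (contDiffOn_const.mul (hc h a))))))

/-- Koszul: the coordinate connection has the coefficients `frameGamma` in the frame. -/
theorem cov_eq (hE : IsFrame V E c) (hg : ∀ i j, ContDiffOn ℝ ∞ (fun x => g x i j) V)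
    (hp : ∀ x ∈ V, (g x).PosDef) (hx : x ∈ V) (a b : Fin 7) :
    cov (chrMap g) (E a) (E b) x = ∑ d, frameGamma g E c a b d x • E d x := by
  let A : Fin 7 → Fin 7 → Fin 7 → ℝ := fun a b e =>
    formMap (g x) (cov (chrMap g) (E a) (E b) x) (E e x)
  let G := frameComp g E x
  have hsym : ∀ u v, formMap (g x) u v = formMap (g x) v u := fun u v => by
    simp only [formMap_apply]
    rw [Finset.sum_comm]
    exact Finset.sum_congr rfl fun i _ => Finset.sum_congr rfl fun j _ => by
      rw [metric_symm hp hx j i]; ring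
  have hD : ∀ a b e, dirD (E a) (fun y => frameComp g E y b e) x = A a b e + A a e b := by
    intro a b e
    have := fderiv_metric_cov (Γ := chrMap g)
      (diffAt_of hE.isOpen (contDiffOn_formMap hg) hx)
      (formMap_compat hE.isOpen hg hp hx) (E a) (diffAt_of hE.isOpen (hE.smooth b) hx)
      (diffAt_of hE.isOpen (hE.smooth e) hx)
    rw [hsym (E b x) (cov (chrMap g) (E a) (E e) x)] at this
    simpa only [dirD, frameComp_form] using this
  have hT : ∀ a b e, A a b e - A b a e = ∑ h, c a b h * G h e := by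
    intro a b e
    have h := cov_sub_cov (Γ := chrMap g) (chrMap_symm hE.isOpen hp hx) (E a) (E b)
    rw [brkt, hE.bracket a b x hx] at h
    have := congrArg (fun u => formMap (g x) u (E e x)) h
    simpa [A, G, frameComp_form] using this
  have hK : ∀ a b e, 2 * A a b e = dirD (E a) (fun y => frameComp g E y b e) x +
      dirD (E b) (fun y => frameComp g E y a e) x - dirD (E e) (fun y => frameComp g E y a b) x +
      ∑ h, (c a b h * G h e - c a e h * G h b - c b e h * G h a) := by
    intro a b e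
    rw [Finset.sum_sub_distrib, Finset.sum_sub_distrib, ← hT, ← hT, ← hT, hD, hD, hD]
    ring
  set N := cov (chrMap g) (E a) (E b) x - ∑ d, frameGamma g E c a b d x • E d x with hN
  suffices H : ∀ e, formMap (g x) N (E e x) = 0 by
    have hz : formMap (g x) N = 0 := by
      apply ContinuousLinearMap.coe_injective
      exact (hE.basis hx).ext fun e => by simpa [basis_apply] using H e
    by_contra hne
    have h0 : N ≠ 0 := fun h => hne (sub_eq_zero.1 h)
    have hpos := (hp x hx).dotProduct_mulVec_pos h0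
    have h1 : formMap (g x) N N = star N ⬝ᵥ g x *ᵥ N := by
      simp only [formMap_apply, dotProduct, Matrix.mulVec, Pi.star_apply, star_trivial,
        Finset.mul_sum]
      exact Finset.sum_congr rfl fun i _ => Finset.sum_congr rfl fun j _ => by ring
    rw [hz] at h1
    simp at h1 hpos
    linarith
  intro e
  rw [hN, map_sub, _root_.sub_apply, sub_eq_zero]
  simp only [map_sum, map_smul, FunLike.coe_sum, Finset.sum_apply, _root_.smul_apply,
    smul_eq_mul, ← frameComp_form, frameGamma]
  show A a b e = _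
  have hI : ∀ f, ∑ d, G e d * G⁻¹ d f = (1 : Matrix (Fin 7) (Fin 7) ℝ) e f := fun f => by
    rw [← Matrix.mul_apply, Matrix.mul_nonsing_inv _ (hE.frameComp_det_isUnit hp hx)]
  calc A a b e = ∑ f, (∑ d, G e d * G⁻¹ d f) * A a b f := by
        simp only [hI]
        simp [Matrix.one_apply]
    _ = _ := by
        have hh : ∀ f, A a b f = (1 / 2) * (2 * A a b f) := fun f => by ring
        simp only [Finset.sum_mul, Finset.mul_sum]
        rw [Finset.sum_comm]
        refine Finset.sum_congr rfl fun d _ => Finset.sum_congr rfl fun f _ => ?_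
        rw [frameComp_symm hp hx d e, hh f, hK]
        simp only [G]
        ring

end IsFrame

theorem ricci_frame {g : MetricField} {V : Set Pt} {E : Fin 7 → Pt → Pt}
    {c : Fin 7 → Fin 7 → Fin 7 → ℝ} (hE : IsFrame V E c)
    (hg : ∀ i j, ContDiffOn ℝ ∞ (fun x => g x i j) V) (hp : ∀ x ∈ V, (g x).PosDef)
    {x : Pt} (hx : x ∈ V) (b e : Fin 7) :
    ∑ i, ∑ j, ricci g i j x * E b x i * E e x j = frameRicci g E c b e x := by
  have hV := hE.isOpen
  have hγ := hE.contDiffOn_frameGamma hg hp
  have hΓd : DifferentiableAt ℝ (chrMap g) x := diffAt_of hV (contDiffOn_chrMap hV hg hp) hx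
  have hΓs := chrMap_symm (g := g) hV hp hx
  let T : Pt →ₗ[ℝ] Pt := curvMap g x (E b x) (E e x)
  -- the curvature in the frame
  have hcov : ∀ a d, cov (chrMap g) (E a) (E d) x = ∑ f, frameGamma g E c a d f x • E f x :=
    fun a d => hE.cov_eq hg hp hx a d
  have hcov2 : ∀ a p q, cov (chrMap g) (E a) (cov (chrMap g) (E p) (E q)) x = ∑ f, (dirD (E a)
      (frameGamma g E c p q f) x + ∑ d, frameGamma g E c p q d x * frameGamma g E c a d f x) •
        E f x := by
    intro a p q
    have hY : cov (chrMap g) (E p) (E q) =ᶠ[nhds x]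
        fun y => ∑ d, frameGamma g E c p q d y • E d y :=
      Filter.eventuallyEq_of_mem (hV.mem_nhds hx) fun y hy => hE.cov_eq hg hp hy p q
    have hf : ∀ d, DifferentiableAt ℝ (frameGamma g E c p q d) x :=
      fun d => diffAt_of hV (hγ p q d) hx
    have hEd : ∀ d, DifferentiableAt ℝ (E d) x := fun d => diffAt_of hV (hE.smooth d) hx
    have step := cov_sum_smul (Γ := chrMap g) (X := E a) (f := frameGamma g E c p q) (E := E)
      hY hf hEd
    refine step.trans ?_
    simp only [hcov, Finset.smul_sum, smul_smul]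
    rw [Finset.sum_add_distrib, Finset.sum_comm (γ := Fin 7) (f := fun d f =>
      (frameGamma g E c p q d x * frameGamma g E c a d f x) • E f x), ← Finset.sum_add_distrib]
    simp only [add_smul, Finset.sum_smul, dirD]
  have hT : ∀ a, T (E a x) = ∑ f, (dirD (E a) (frameGamma g E c b e f) x -
      dirD (E b) (frameGamma g E c a e f) x +
      ∑ d, (frameGamma g E c b e d x * frameGamma g E c a d f x -
        frameGamma g E c a e d x * frameGamma g E c b d f x -
        c a b d * frameGamma g E c d e f x)) • E f x := by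
    intro a
    have he := hE.smooth e
    have := cov_curvature hΓd hΓs (diffAt_of hV (hE.smooth a) hx)
      (diffAt_of hV (hE.smooth b) hx) (diffAt_of hV he hx)
      (diffAt_of hV (he.fderiv_of_isOpen hV le_rfl) hx)
      ((he.contDiffAt (hV.mem_nhds hx)).isSymmSndFDerivAt (by simp; norm_cast))
    show fderiv ℝ (chrMap g) x (E a x) (E b x) (E e x) - fderiv ℝ (chrMap g) x (E b x) (E a x) (E e x) +
        chrMap g x (E a x) (chrMap g x (E b x) (E e x)) - chrMap g x (E b x) (chrMap g x (E a x) (E e x)) = _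
    rw [← this, hcov2, hcov2, cov_dir (X := brkt (E a) (E b)) (w := c a b) (E := E)
      (hE.bracket a b x hx)]
    simp only [hcov, Finset.smul_sum, smul_smul]
    rw [Finset.sum_comm]
    simp only [← Finset.sum_smul, ← Finset.sum_sub_distrib, ← sub_smul]
    refine Finset.sum_congr rfl fun f _ => ?_
    congr 1
    simp only [Finset.sum_sub_distrib]
    ring
  have tr1 : LinearMap.trace ℝ Pt T = frameRicci g E c b e x := by
    rw [LinearMap.trace_eq_matrix_trace ℝ (hE.basis hx) T]
    simp only [Matrix.trace, Matrix.diag_apply, LinearMap.toMatrix_apply, IsFrame.basis_apply, hT]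
    simp only [← IsFrame.basis_apply hE hx, Module.Basis.repr_sum_self]
    simp [frameRicci, Finset.sum_add_distrib, Finset.sum_sub_distrib]
  rw [← tr1, trace_curvMap hV hg hp hx]
  refine Finset.sum_congr rfl fun q _ => Finset.sum_congr rfl fun p _ => ?_
  rw [ricci_symm hV hg hp hx q p]

theorem laplacian_frame {g : MetricField} {V : Set Pt} {E : Fin 7 → Pt → Pt}
    {c : Fin 7 → Fin 7 → Fin 7 → ℝ} (hE : IsFrame V E c)
    (hg : ∀ i j, ContDiffOn ℝ ∞ (fun x => g x i j) V) (hp : ∀ x ∈ V, (g x).PosDef)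
    {u : Pt → ℝ} (hu : ContDiffOn ℝ ∞ u V) {x : Pt} (hx : x ∈ V) :
    laplacian g u x = ∑ a, ∑ b, (frameComp g E x)⁻¹ a b *
      (dirD (E a) (dirD (E b) u) x - ∑ d, frameGamma g E c a b d x * dirD (E d) u x) := by
  have hV := hE.isOpen
  set M := IsFrame.mat E x
  let H : Matrix (Fin 7) (Fin 7) ℝ :=
    fun i j => pd (pd u j) i x - ∑ k, christoffel g k i j x * pd u k x
  have hH : ∀ a b, dirD (E a) (dirD (E b) u) x - ∑ d, frameGamma g E c a b d x * dirD (E d) u x =
      (Mᵀ * H * M) a b := by
    intro a b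
    have hd : DifferentiableAt ℝ (fderiv ℝ u) x :=
      diffAt_of hV (hu.fderiv_of_isOpen hV le_rfl) hx
    have h1 : dirD (E a) (dirD (E b) u) x = fderiv ℝ (fderiv ℝ u) x (E a x) (E b x) +
        fderiv ℝ u x (fderiv ℝ (E b) x (E a x)) := by
      show fderiv ℝ (fun y => fderiv ℝ u y (E b y)) x (E a x) = _
      rw [(hd.hasFDerivAt.clm_apply (diffAt_of hV (hE.smooth b) hx).hasFDerivAt).fderiv]
      simp
      ring
    have h2 : ∑ d, frameGamma g E c a b d x * dirD (E d) u x =
        fderiv ℝ u x (cov (chrMap g) (E a) (E b) x) := by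
      simp [hE.cov_eq hg hp hx, dirD]
    have h3 : ∀ i j, pd (pd u j) i x =
        fderiv ℝ (fderiv ℝ u) x (Pi.single i 1) (Pi.single j 1) := fun i j => by
      show fderiv ℝ (fun y => fderiv ℝ u y (Pi.single j 1)) x (Pi.single i 1) = _
      rw [(hd.hasFDerivAt.clm_apply (hasFDerivAt_const (Pi.single j 1) x)).fderiv]
      simp
    have h4 : ∀ i j, fderiv ℝ u x (chrMap g x (Pi.single i 1) (Pi.single j 1)) =
        ∑ k, christoffel g k i j x * pd u k x := fun i j => by
      conv_lhs => rw [pi_eq_sum_univ' (chrMap g x (Pi.single i 1) (Pi.single j 1))]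
      simp [chrMap_single, pd]
    have hsub : ∀ (P Q : Pt →L[ℝ] Pt →L[ℝ] ℝ) (p q : Pt), P p q - Q p q = (P - Q) p q :=
      fun P Q p q => by simp
    rw [h1, h2, cov, map_add, show ∀ p q r : ℝ, p + q - (q + r) = p - r from fun p q r => by ring,
      show fderiv ℝ u x (chrMap g x (E a x) (E b x)) =
        ((ContinuousLinearMap.compL ℝ Pt Pt ℝ (fderiv ℝ u x)).comp (chrMap g x)) (E a x) (E b x)
        from rfl, hsub, bil_expand]
    simp only [Matrix.mul_apply, Matrix.transpose_apply, Finset.sum_mul]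
    rw [Finset.sum_comm]
    refine Finset.sum_congr rfl fun j _ => Finset.sum_congr rfl fun i _ => ?_
    simp only [_root_.sub_apply, ContinuousLinearMap.comp_apply,
      ContinuousLinearMap.compL_apply, h4, ← h3, H, M, IsFrame.mat]
    ring
  simp only [hH]
  show ∑ i, ∑ j, (g x)⁻¹ i j * H i j = _
  have hG : ∀ a b, (frameComp g E x)⁻¹ a b = (frameComp g E x)⁻¹ b a := fun a b => by
    simpa using ((hE.frameComp_posDef hp hx).1.inv.apply a b).symm
  have tr : ∀ (P Q : Matrix (Fin 7) (Fin 7) ℝ), (∀ i j, P i j = P j i) →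
      ∑ i, ∑ j, P i j * Q i j = Matrix.trace (P * Q) := fun P Q hP => by
    simp only [Matrix.trace, Matrix.diag_apply, Matrix.mul_apply]
    rw [Finset.sum_comm]
    exact Finset.sum_congr rfl fun i _ => Finset.sum_congr rfl fun j _ => by rw [hP]
  rw [tr _ _ (inv_metric_symm hp hx), tr _ _ hG, IsFrame.frameComp_eq, Matrix.mul_inv_rev,
    Matrix.mul_inv_rev]
  have hM : IsUnit M.det := (Matrix.isUnit_iff_isUnit_det _).1 (hE.mat_isUnit hx)
  have hMt : IsUnit Mᵀ.det := by rwa [Matrix.det_transpose]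
  calc Matrix.trace ((g x)⁻¹ * H) = Matrix.trace ((g x)⁻¹ * H * (M * M⁻¹)) := by
        rw [Matrix.mul_nonsing_inv _ hM, Matrix.mul_one]
    _ = Matrix.trace (M⁻¹ * ((g x)⁻¹ * H * M)) := by
        rw [← Matrix.mul_assoc _ M, Matrix.trace_mul_comm]
    _ = Matrix.trace (M⁻¹ * ((g x)⁻¹ * (Mᵀ⁻¹ * Mᵀ) * H * M)) := by
        rw [Matrix.nonsing_inv_mul _ hMt, Matrix.mul_one]
    _ = _ := by simp only [Matrix.mul_assoc, M]

/-- Nonnegativity of the Ricci form only needs to be checked in a frame. -/
theorem ricci_nonneg_of_frame {g : MetricField} {V : Set Pt} {E : Fin 7 → Pt → Pt}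
    {c : Fin 7 → Fin 7 → Fin 7 → ℝ} (hE : IsFrame V E c)
    (hg : ∀ i j, ContDiffOn ℝ ∞ (fun x => g x i j) V) (hp : ∀ x ∈ V, (g x).PosDef)
    {x : Pt} (hx : x ∈ V) (h : ∀ w : Fin 7 → ℝ, 0 ≤ ∑ b, ∑ e, frameRicci g E c b e x * w b * w e)
    (v : Pt) : 0 ≤ ∑ i, ∑ j, ricci g i j x * v i * v j := by
  set R := formMap (Matrix.of fun i j => ricci g i j x) with hR
  have hv : v = ∑ b, (hE.basis hx).repr v b • E b x := by
    simp_rw [← hE.basis_apply hx, Module.Basis.sum_repr]
  have key : ∑ i, ∑ j, ricci g i j x * v i * v j =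
      ∑ b, ∑ e, frameRicci g E c b e x * (hE.basis hx).repr v b * (hE.basis hx).repr v e := by
    rw [show (∑ i, ∑ j, ricci g i j x * v i * v j) = R v v by rw [hR, formMap_apply]; rfl]
    conv_lhs => rw [hv]
    simp only [map_sum, map_smul, FunLike.coe_sum, Finset.sum_apply, _root_.smul_apply,
      smul_eq_mul, Finset.mul_sum, hR, ← ricci_frame hE hg hp hx]
    rw [Finset.sum_comm]
    exact Finset.sum_congr rfl fun b _ => Finset.sum_congr rfl fun e _ => by
      rw [formMap_apply]
      simp only [Matrix.of_apply, Finset.sum_mul, Finset.mul_sum]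
      exact Finset.sum_congr rfl fun i _ => Finset.sum_congr rfl fun j _ => by ring
  rw [key]
  exact h _

end Vale.Agent.P225
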