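import Vale.Agent.P225.Geom.Frame

/-!
P225, module A: a metric `dr² + M(r)` on a homogeneous link, in a frame `∂_r, E 1, …, E 6`.
-/

noncomputable section

namespace Vale.Agent.P225

open scoped ContDiff
open Set Matrix

/-- The link index `i` as a frame index. -/
abbrev lk (i : Fin 6) : Fin 7 := i.succ

/-- Connection coefficients of the left-invariant metric `M` on the link. -/
def linkGamma (M : Matrix (Fin 6) (Fin 6) ℝ) (c : Fin 6 → Fin 6 → Fin 6 → ℝ) (i j l : Fin 6) :
    ℝ :=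
  (1 / 2) * ∑ e, M⁻¹ l e * ∑ h, (c i j h * M h e - c i e h * M h j - c j e h * M h i)

/-- Ricci tensor of the left-invariant metric `M` on the link. -/
def linkRicci (M : Matrix (Fin 6) (Fin 6) ℝ) (c : Fin 6 → Fin 6 → Fin 6 → ℝ) (i j : Fin 6) : ℝ :=
  ∑ k, ∑ d, (linkGamma M c i j d * linkGamma M c k d k -
    linkGamma M c k j d * linkGamma M c i d k - c k i d * linkGamma M c d j k)

/-- The setting: `E 0` is `∂_r`, the others preserve `r` and span a unimodular algebra, and the
metric is `dr² + M(r)`. -/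
structure IsWarped (V : Set Pt) (g : MetricField) (E : Fin 7 → Pt → Pt) (r : Pt → ℝ)
    (M : ℝ → Matrix (Fin 6) (Fin 6) ℝ) (c : Fin 6 → Fin 6 → Fin 6 → ℝ)
    (c7 : Fin 7 → Fin 7 → Fin 7 → ℝ) : Prop where
  frame : IsFrame V E c7
  smoothG : ∀ i j, ContDiffOn ℝ ∞ (fun x => g x i j) V
  posDef : ∀ x ∈ V, (g x).PosDef
  smoothR : ContDiffOn ℝ ∞ r V
  dirR : ∀ x ∈ V, ∀ a, dirD (E a) r x = if a = 0 then 1 else 0
  comp00 : ∀ x ∈ V, frameComp g E x 0 0 = 1
  comp0 : ∀ x ∈ V, ∀ i, frameComp g E x 0 (lk i) = 0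
  comp : ∀ x ∈ V, ∀ i j, frameComp g E x (lk i) (lk j) = M (r x) i j
  smoothM : ∀ x ∈ V, ∀ i j, ContDiffAt ℝ ∞ (fun s => M s i j) (r x)
  symmM : ∀ s, (M s).IsSymm
  c_link : ∀ i j k, c7 (lk i) (lk j) (lk k) = c i j k
  c_zero : ∀ a b d, a = 0 ∨ b = 0 ∨ d = 0 → c7 a b d = 0
  anti : ∀ i j k, c i j k = -c j i k
  unimodular : ∀ i, ∑ k, c i k k = 0

variable {V : Set Pt} {g : MetricField} {E : Fin 7 → Pt → Pt} {r : Pt → ℝ}
  {M : ℝ → Matrix (Fin 6) (Fin 6) ℝ} {c : Fin 6 → Fin 6 → Fin 6 → ℝ}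
  {c7 : Fin 7 → Fin 7 → Fin 7 → ℝ}

/-- Entrywise derivative of a matrix path. -/
def mderiv (M : ℝ → Matrix (Fin 6) (Fin 6) ℝ) (s : ℝ) : Matrix (Fin 6) (Fin 6) ℝ :=
  fun i j => deriv (fun u => M u i j) s

/-- `t` in the corner, `A` on the link. -/
def warpExt (t : ℝ) (A : Matrix (Fin 6) (Fin 6) ℝ) : Matrix (Fin 7) (Fin 7) ℝ := fun a b =>
  Fin.cases (Fin.cases t (fun _ => 0) b) (fun i => Fin.cases 0 (A i) b) a

@[simp] theorem warpExt_zero_zero (t : ℝ) (A : Matrix (Fin 6) (Fin 6) ℝ) :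
    warpExt t A 0 0 = t := rfl

@[simp] theorem warpExt_zero_succ (t : ℝ) (A : Matrix (Fin 6) (Fin 6) ℝ) (j : Fin 6) :
    warpExt t A 0 j.succ = 0 := rfl

@[simp] theorem warpExt_succ_zero (t : ℝ) (A : Matrix (Fin 6) (Fin 6) ℝ) (i : Fin 6) :
    warpExt t A i.succ 0 = 0 := rfl

@[simp] theorem warpExt_succ_succ (t : ℝ) (A : Matrix (Fin 6) (Fin 6) ℝ) (i j : Fin 6) :
    warpExt t A i.succ j.succ = A i j := rfl

theorem warpExt_mul (A B : Matrix (Fin 6) (Fin 6) ℝ) :
    warpExt 1 A * warpExt 1 B = warpExt 1 (A * B) := by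
  ext a b
  cases a using Fin.cases <;> cases b using Fin.cases <;>
    simp [Matrix.mul_apply, Fin.sum_univ_succ (n := 6)]

theorem warpExt_one : warpExt 1 (1 : Matrix (Fin 6) (Fin 6) ℝ) = 1 := by
  ext a b
  cases a using Fin.cases <;> cases b using Fin.cases <;>
    simp [Matrix.one_apply, Fin.succ_ne_zero, eq_comm]

/-- The connection coefficients of `dr² + M(r)` as functions of `r`. -/
def warpGamma (M : ℝ → Matrix (Fin 6) (Fin 6) ℝ) (c7 : Fin 7 → Fin 7 → Fin 7 → ℝ) (s : ℝ)
    (a b d : Fin 7) : ℝ :=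
  (1 / 2) * ∑ e, warpExt 1 (M s)⁻¹ d e *
    ((if a = 0 then warpExt 0 (mderiv M s) b e else 0) +
      (if b = 0 then warpExt 0 (mderiv M s) a e else 0) -
      (if e = 0 then warpExt 0 (mderiv M s) a b else 0) +
      ∑ h, (c7 a b h * warpExt 1 (M s) h e - c7 a e h * warpExt 1 (M s) h b -
        c7 b e h * warpExt 1 (M s) h a))

theorem contDiffAt_det_entries {n : Type*} [Fintype n] [DecidableEq n]
    {A : ℝ → Matrix n n ℝ} {s : ℝ}
    (hA : ∀ i j, ContDiffAt ℝ ∞ (fun u => A u i j) s) :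
    ContDiffAt ℝ ∞ (fun u => (A u).det) s := by
  simp only [Matrix.det_apply']
  exact ContDiffAt.sum fun σ _ => contDiffAt_const.mul (contDiffAt_prod fun i _ => hA _ _)

theorem contDiffAt_inv_entries {n : Type*} [Fintype n] [DecidableEq n]
    {A : ℝ → Matrix n n ℝ} {s : ℝ}
    (hA : ∀ i j, ContDiffAt ℝ ∞ (fun u => A u i j) s) (hd : (A s).det ≠ 0) (i j : n) :
    ContDiffAt ℝ ∞ (fun u => (A u)⁻¹ i j) s := by
  have hadj : ContDiffAt ℝ ∞ (fun u => (A u).adjugate i j) s := by
    simp only [Matrix.adjugate_apply]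
    refine contDiffAt_det_entries fun k l => ?_
    simp only [Matrix.updateRow_apply]
    split_ifs
    · exact contDiffAt_const
    · exact hA k l
  simp only [Matrix.inv_def, Matrix.smul_apply, Ring.inverse_eq_inv', smul_eq_mul]
  exact ((contDiffAt_det_entries hA).inv hd).mul hadj

theorem contDiffAt_mderiv {A : ℝ → Matrix (Fin 6) (Fin 6) ℝ} {s : ℝ}
    (hA : ∀ i j, ContDiffAt ℝ ∞ (fun u => A u i j) s) (i j : Fin 6) :
    ContDiffAt ℝ ∞ (fun u => mderiv A u i j) s := by
  unfold mderiv deriv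
  exact ((hA i j).fderiv_right (by simp)).clm_apply contDiffAt_const

/-- Sums `∑ e, M h e * M⁻¹ l e`. -/
theorem sum_mul_inv_symm {A : Matrix (Fin 6) (Fin 6) ℝ} (hs : A.IsSymm) (hd : A.det ≠ 0)
    (h l : Fin 6) : ∑ e, A h e * A⁻¹ l e = if h = l then 1 else 0 := by
  have h1 : (A⁻¹)ᵀ = A⁻¹ := by rw [Matrix.transpose_nonsing_inv, hs]
  have h2 : A * A⁻¹ = 1 := Matrix.mul_nonsing_inv A (isUnit_iff_ne_zero.2 hd)
  have h3 : (A * (A⁻¹)ᵀ) h l = (1 : Matrix (Fin 6) (Fin 6) ℝ) h l := by rw [h1, h2]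
  simpa [Matrix.mul_apply, Matrix.one_apply] using h3

theorem inv_apply_symm {A : Matrix (Fin 6) (Fin 6) ℝ} (hs : A.IsSymm) (i j : Fin 6) :
    A⁻¹ i j = A⁻¹ j i := by
  have h1 : (A⁻¹)ᵀ = A⁻¹ := by rw [Matrix.transpose_nonsing_inv, hs]
  exact congrFun (congrFun h1 j) i

theorem sum_anti_symm {a s : Fin 6 → Fin 6 → ℝ} (ha : ∀ i j, a i j = -a j i)
    (hs : ∀ i j, s i j = s j i) : ∑ i, ∑ j, s i j * a i j = 0 := by
  have h := Finset.sum_comm (f := fun i j => s i j * a i j) (s := Finset.univ) (t := Finset.univ)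
  have h2 : ∑ j, ∑ i, s i j * a i j = -∑ i, ∑ j, s i j * a i j := by
    simp only [← Finset.sum_neg_distrib]
    refine Finset.sum_congr rfl fun i _ => Finset.sum_congr rfl fun j _ => ?_
    rw [hs j i, ha j i]
    ring
  linarith

theorem linkGamma_trace {A : Matrix (Fin 6) (Fin 6) ℝ} (hs : A.IsSymm) (hd : A.det ≠ 0)
    (anti : ∀ i j k, c i j k = -c j i k) (uni : ∀ i, ∑ k, c i k k = 0) (j : Fin 6) :
    ∑ i, linkGamma A c i j i = 0 := by
  have t1 : ∑ i, ∑ e, A⁻¹ i e * ∑ h, c i j h * A h e = 0 := by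
    calc ∑ i, ∑ e, A⁻¹ i e * ∑ h, c i j h * A h e
        = ∑ i, ∑ h, c i j h * ∑ e, A h e * A⁻¹ i e := by
          refine Finset.sum_congr rfl fun i _ => ?_
          simp only [Finset.mul_sum]
          rw [Finset.sum_comm]
          exact Finset.sum_congr rfl fun h _ => Finset.sum_congr rfl fun e _ => by ring
      _ = ∑ i, -c j i i := by simp [sum_mul_inv_symm hs hd, ← anti]
      _ = 0 := by rw [Finset.sum_neg_distrib, uni j, neg_zero]
  have t2 : ∑ i, ∑ e, A⁻¹ i e * ∑ h, c i e h * A h j = 0 :=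
    sum_anti_symm (fun i e => by
      rw [← Finset.sum_neg_distrib]
      exact Finset.sum_congr rfl fun h _ => by rw [anti i e h]; ring) (inv_apply_symm hs)
  have t3 : ∑ i, ∑ e, A⁻¹ i e * ∑ h, c j e h * A h i = 0 := by
    calc ∑ i, ∑ e, A⁻¹ i e * ∑ h, c j e h * A h i
        = ∑ e, ∑ h, c j e h * ∑ i, A h i * A⁻¹ e i := by
          rw [Finset.sum_comm]
          refine Finset.sum_congr rfl fun e _ => ?_
          simp only [Finset.mul_sum]
          rw [Finset.sum_comm]
          exact Finset.sum_congr rfl fun h _ => Finset.sum_congr rfl fun i _ => by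
            rw [inv_apply_symm hs e i]; ring
      _ = 0 := by simp [sum_mul_inv_symm hs hd, uni j]
  simp only [linkGamma, Finset.sum_sub_distrib, mul_sub, ← Finset.mul_sum]
  rw [t1, t2, t3]
  norm_num

theorem linkGamma_inv_trace {A : Matrix (Fin 6) (Fin 6) ℝ} (hs : A.IsSymm) (hd : A.det ≠ 0)
    (anti : ∀ i j k, c i j k = -c j i k) (uni : ∀ i, ∑ k, c i k k = 0) (l : Fin 6) :
    ∑ i, ∑ j, A⁻¹ i j * linkGamma A c i j l = 0 := by
  have u : ∀ e, ∑ i, ∑ j, A⁻¹ i j * ∑ h, c i e h * A h j = 0 := by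
    intro e
    calc ∑ i, ∑ j, A⁻¹ i j * ∑ h, c i e h * A h j
        = ∑ i, ∑ h, c i e h * ∑ j, A h j * A⁻¹ i j := by
          refine Finset.sum_congr rfl fun i _ => ?_
          simp only [Finset.mul_sum]
          rw [Finset.sum_comm]
          exact Finset.sum_congr rfl fun h _ => Finset.sum_congr rfl fun e _ => by ring
      _ = ∑ i, -c e i i := by simp [sum_mul_inv_symm hs hd, ← anti]
      _ = 0 := by rw [Finset.sum_neg_distrib, uni e, neg_zero]
  have v : ∀ e, ∑ i, ∑ j, A⁻¹ i j * ∑ h, c j e h * A h i = 0 := by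
    intro e
    rw [Finset.sum_comm]
    simpa only [inv_apply_symm hs] using u e
  have w : ∀ e, ∑ i, ∑ j, A⁻¹ i j * ∑ h, c i j h * A h e = 0 := fun e =>
    sum_anti_symm (fun i j => by
      rw [← Finset.sum_neg_distrib]
      exact Finset.sum_congr rfl fun h _ => by rw [anti i j h]; ring) (inv_apply_symm hs)
  calc ∑ i, ∑ j, A⁻¹ i j * linkGamma A c i j l
      = ∑ i, ∑ j, ∑ e, (1 / 2) * A⁻¹ l e * (A⁻¹ i j * ∑ h,
          (c i j h * A h e - c i e h * A h j - c j e h * A h i)) := by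
        refine Finset.sum_congr rfl fun i _ => Finset.sum_congr rfl fun j _ => ?_
        simp only [linkGamma, Finset.mul_sum]
        exact Finset.sum_congr rfl fun e _ => Finset.sum_congr rfl fun h _ => by ring
    _ = ∑ e, ∑ i, ∑ j, (1 / 2) * A⁻¹ l e * (A⁻¹ i j * ∑ h,
          (c i j h * A h e - c i e h * A h j - c j e h * A h i)) := by
        rw [Finset.sum_comm (γ := Fin 6) (f := fun e i => ∑ j, (1 / 2) * A⁻¹ l e * (A⁻¹ i j * ∑ h,
          (c i j h * A h e - c i e h * A h j - c j e h * A h i)))]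
        exact Finset.sum_congr rfl fun i _ => Finset.sum_comm
    _ = 0 := by
        simp only [Finset.sum_sub_distrib, mul_sub, ← Finset.mul_sum, u, v, w]
        simp

theorem linkGamma_torsion {A : Matrix (Fin 6) (Fin 6) ℝ} (hs : A.IsSymm) (hd : A.det ≠ 0)
    (anti : ∀ i j k, c i j k = -c j i k) (i j l : Fin 6) :
    linkGamma A c i j l - linkGamma A c j i l = c i j l := by
  calc linkGamma A c i j l - linkGamma A c j i l
      = ∑ h, c i j h * ∑ e, A h e * A⁻¹ l e := by
        simp only [linkGamma, Finset.mul_sum]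
        rw [Finset.sum_comm (f := fun h e => c i j h * (A h e * A⁻¹ l e))]
        rw [← Finset.sum_sub_distrib]
        refine Finset.sum_congr rfl fun e _ => ?_
        rw [← Finset.sum_sub_distrib]
        refine Finset.sum_congr rfl fun h _ => ?_
        rw [anti j i h]
        ring
    _ = c i j l := by simp [sum_mul_inv_symm hs hd]

namespace IsWarped

theorem c7_left (h : IsWarped V g E r M c c7) (b d : Fin 7) : c7 0 b d = 0 :=
  h.c_zero 0 b d (Or.inl rfl)

theorem c7_mid (h : IsWarped V g E r M c c7) (a d : Fin 7) : c7 a 0 d = 0 :=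
  h.c_zero a 0 d (Or.inr (Or.inl rfl))

theorem c7_right (h : IsWarped V g E r M c c7) (a b : Fin 7) : c7 a b 0 = 0 :=
  h.c_zero a b 0 (Or.inr (Or.inr rfl))

theorem c7_succ (h : IsWarped V g E r M c c7) (i j k : Fin 6) :
    c7 i.succ j.succ k.succ = c i j k :=
  h.c_link i j k

theorem mderiv_symm (h : IsWarped V g E r M c c7) (s : ℝ) (i j : Fin 6) :
    mderiv M s i j = mderiv M s j i := by
  unfold mderiv
  exact congrArg (fun f => deriv f s) (funext fun u => (h.symmM u).apply j i)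

theorem comp_eq (h : IsWarped V g E r M c c7) {y : Pt} (hy : y ∈ V) :
    frameComp g E y = warpExt 1 (M (r y)) := by
  have hsym : ∀ a b, frameComp g E y a b = frameComp g E y b a := by
    intro a b
    unfold frameComp
    rw [Finset.sum_comm]
    refine Finset.sum_congr rfl fun i _ => Finset.sum_congr rfl fun j _ => ?_
    have hg : g y j i = g y i j := by simpa using (h.posDef y hy).isHermitian.apply i j
    rw [hg]
    ring
  ext a b
  cases a using Fin.cases with
  | zero =>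
    cases b using Fin.cases with
    | zero => exact h.comp00 y hy
    | succ j => exact h.comp0 y hy j
  | succ i =>
    cases b using Fin.cases with
    | zero => exact (hsym _ _).trans (h.comp0 y hy i)
    | succ j => exact h.comp y hy i j

theorem posDef_link (h : IsWarped V g E r M c c7) {y : Pt} (hy : y ∈ V) :
    (M (r y)).PosDef := by
  let B : Matrix (Fin 7) (Fin 7) ℝ := Matrix.of fun a i => E a y i
  have hB : Function.Injective B.vecMul := Matrix.vecMul_injective_iff.2 (h.frame.indep y hy)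
  have e : frameComp g E y = B * g y * Bᴴ := by
    ext a b
    simp only [frameComp, Matrix.mul_apply, Matrix.conjTranspose_apply, Finset.sum_mul, B,
      Matrix.of_apply, star_trivial]
    rw [Finset.sum_comm]
    exact Finset.sum_congr rfl fun j _ => Finset.sum_congr rfl fun i _ => by ring
  have hp : (frameComp g E y).PosDef := e ▸ (h.posDef y hy).mul_mul_conjTranspose_same hB
  have := hp.submatrix (e := Fin.succ (n := 6)) (Fin.succ_injective 6)
  rw [h.comp_eq hy] at this
  exact this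

theorem det_ne (h : IsWarped V g E r M c c7) {y : Pt} (hy : y ∈ V) : (M (r y)).det ≠ 0 :=
  (h.posDef_link hy).det_pos.ne'

theorem inv_eq (h : IsWarped V g E r M c c7) {y : Pt} (hy : y ∈ V) :
    (frameComp g E y)⁻¹ = warpExt 1 (M (r y))⁻¹ := by
  apply Matrix.inv_eq_right_inv
  rw [h.comp_eq hy, warpExt_mul,
    Matrix.mul_nonsing_inv _ (isUnit_iff_ne_zero.2 (h.det_ne hy)), warpExt_one]

/-- A function of `r` is differentiated by the chain rule. -/
theorem dirD_comp (h : IsWarped V g E r M c c7) {x : Pt} (hx : x ∈ V) {F : Pt → ℝ} {f : ℝ → ℝ}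
    (hF : ∀ y ∈ V, F y = f (r y)) (hf : DifferentiableAt ℝ f (r x)) (a : Fin 7) :
    dirD (E a) F x = if a = 0 then deriv f (r x) else 0 := by
  have hn : V ∈ nhds x := h.frame.isOpen.mem_nhds hx
  have hr : HasFDerivAt r (fderiv ℝ r x) x :=
    ((h.smoothR.contDiffAt hn).differentiableAt (by simp)).hasFDerivAt
  have he : F =ᶠ[nhds x] f ∘ r := Filter.eventually_of_mem hn fun y hy => hF y hy
  have := h.dirR x hx a
  unfold dirD at this ⊢
  rw [he.fderiv_eq, (hf.hasDerivAt.comp_hasFDerivAt x hr).fderiv]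
  simp [this]

theorem dirD_frameComp (h : IsWarped V g E r M c c7) {x : Pt} (hx : x ∈ V) (a b e : Fin 7) :
    dirD (E a) (fun y => frameComp g E y b e) x =
      if a = 0 then warpExt 0 (mderiv M (r x)) b e else 0 := by
  have hF : ∀ y ∈ V, frameComp g E y b e = warpExt 1 (M (r y)) b e := fun y hy => by
    rw [h.comp_eq hy]
  have hdiff : DifferentiableAt ℝ (fun s => warpExt 1 (M s) b e) (r x) := by
    cases b using Fin.cases <;> cases e using Fin.cases <;>
      first
      | exact differentiableAt_const _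
      | exact (h.smoothM x hx _ _).differentiableAt (by simp)
  rw [h.dirD_comp hx (f := fun s => warpExt 1 (M s) b e) hF hdiff]
  split_ifs
  · cases b using Fin.cases <;> cases e using Fin.cases <;> simp [mderiv]
  · rfl

theorem gamma_eq (h : IsWarped V g E r M c c7) {y : Pt} (hy : y ∈ V) (a b d : Fin 7) :
    frameGamma g E c7 a b d y = warpGamma M c7 (r y) a b d := by
  simp only [frameGamma, warpGamma, h.dirD_frameComp hy, h.inv_eq hy]
  simp only [h.comp_eq hy]

theorem contDiffAt_gamma (h : IsWarped V g E r M c c7) {x : Pt} (hx : x ∈ V) (a b d : Fin 7) :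
    ContDiffAt ℝ ∞ (fun s => warpGamma M c7 s a b d) (r x) := by
  have hM := h.smoothM x hx
  have hext : ∀ (t : ℝ) (A : ℝ → Matrix (Fin 6) (Fin 6) ℝ),
      (∀ i j, ContDiffAt ℝ ∞ (fun s => A s i j) (r x)) →
      ∀ p q, ContDiffAt ℝ ∞ (fun s => warpExt t (A s) p q) (r x) := by
    intro t A hA p q
    cases p using Fin.cases <;> cases q using Fin.cases <;>
      simp [contDiffAt_const, hA]
  have h1 := hext 0 _ (contDiffAt_mderiv hM)
  unfold warpGamma
  refine contDiffAt_const.mul (ContDiffAt.sum fun e _ => ?_)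
  refine (hext 1 _ (contDiffAt_inv_entries hM (h.det_ne hx)) d e).mul ?_
  refine ((ContDiffAt.add ?_ ?_).sub ?_).add (ContDiffAt.sum fun k _ => ?_)
  · split_ifs
    · exact h1 b e
    · exact contDiffAt_const
  · split_ifs
    · exact h1 a e
    · exact contDiffAt_const
  · split_ifs
    · exact h1 a b
    · exact contDiffAt_const
  · exact ((contDiffAt_const.mul (hext 1 _ hM k e)).sub
      (contDiffAt_const.mul (hext 1 _ hM k b))).sub (contDiffAt_const.mul (hext 1 _ hM k a))

theorem dirD_gamma (h : IsWarped V g E r M c c7) {x : Pt} (hx : x ∈ V) (e a b d : Fin 7) :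
    dirD (E e) (frameGamma g E c7 a b d) x =
      if e = 0 then deriv (fun s => warpGamma M c7 s a b d) (r x) else 0 :=
  h.dirD_comp hx (fun _ hy => h.gamma_eq hy a b d)
    ((h.contDiffAt_gamma hx a b d).differentiableAt (by simp)) e

theorem gamma_00 (h : IsWarped V g E r M c c7) (s : ℝ) (d : Fin 7) :
    warpGamma M c7 s 0 0 d = 0 := by
  cases d using Fin.cases <;>
    simp [warpGamma, Fin.sum_univ_succ (n := 6), h.c7_left]

theorem gamma_0l0 (h : IsWarped V g E r M c c7) (s : ℝ) (j : Fin 6) :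
    warpGamma M c7 s 0 j.succ 0 = 0 := by
  simp [warpGamma, Fin.sum_univ_succ (n := 6), h.c7_left, h.c7_mid]

theorem gamma_0ll (h : IsWarped V g E r M c c7) (s : ℝ) (j l : Fin 6) :
    warpGamma M c7 s 0 j.succ l.succ = (1 / 2) * ((M s)⁻¹ * mderiv M s) l j := by
  simp [warpGamma, Fin.sum_univ_succ (n := 6), h.c7_left, h.c7_right, Matrix.mul_apply, h.mderiv_symm s j]

theorem gamma_l00 (h : IsWarped V g E r M c c7) (s : ℝ) (i : Fin 6) :
    warpGamma M c7 s i.succ 0 0 = 0 := by
  simp [warpGamma, Fin.sum_univ_succ (n := 6), h.c7_left, h.c7_mid]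

theorem gamma_l0l (h : IsWarped V g E r M c c7) (s : ℝ) (i l : Fin 6) :
    warpGamma M c7 s i.succ 0 l.succ = (1 / 2) * ((M s)⁻¹ * mderiv M s) l i := by
  simp [warpGamma, Fin.sum_univ_succ (n := 6), h.c7_left, h.c7_mid, h.c7_right, Matrix.mul_apply,
    h.mderiv_symm s i]

theorem gamma_ll0 (h : IsWarped V g E r M c c7) (s : ℝ) (i j : Fin 6) :
    warpGamma M c7 s i.succ j.succ 0 = -(1 / 2) * mderiv M s i j := by
  simp [warpGamma, Fin.sum_univ_succ (n := 6), h.c7_mid, h.c7_right]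

theorem gamma_lll (h : IsWarped V g E r M c c7) (s : ℝ) (i j l : Fin 6) :
    warpGamma M c7 s i.succ j.succ l.succ = linkGamma (M s) c i j l := by
  simp [warpGamma, linkGamma, Fin.sum_univ_succ (n := 6), h.c7_right, h.c7_succ]

theorem trace_zero (h : IsWarped V g E r M c c7) (s : ℝ) :
    ∑ a, warpGamma M c7 s a 0 a = (1 / 2) * ((M s)⁻¹ * mderiv M s).trace := by
  rw [Fin.sum_univ_succ, h.gamma_00]
  simp [h.gamma_l0l, Matrix.trace, Finset.mul_sum]

theorem trace_succ (h : IsWarped V g E r M c c7) {s : ℝ} (hs : (M s).det ≠ 0) (j : Fin 6) :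
    ∑ a, warpGamma M c7 s a j.succ a = 0 := by
  rw [Fin.sum_univ_succ, h.gamma_0l0]
  simp [h.gamma_lll, linkGamma_trace (h.symmM s) hs h.anti h.unimodular]

theorem sum_dirD_trace (h : IsWarped V g E r M c c7) {x : Pt} (hx : x ∈ V) (j : Fin 6) :
    ∑ a, dirD (E 0) (frameGamma g E c7 a j.succ a) x = 0 := by
  simp only [h.dirD_gamma hx, if_true]
  rw [← deriv_fun_sum fun a _ => (h.contDiffAt_gamma hx a _ a).differentiableAt (by simp)]
  have hev : ∀ᶠ s in nhds (r x), (M s).det ≠ 0 :=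
    (contDiffAt_det_entries (h.smoothM x hx)).continuousAt.eventually_ne (h.det_ne hx)
  have he : (fun s => ∑ a, warpGamma M c7 s a j.succ a) =ᶠ[nhds (r x)] fun _ => 0 := by
    filter_upwards [hev] with s hs
    exact h.trace_succ hs j
  rw [he.deriv_eq, deriv_const]

theorem deriv_trace (h : IsWarped V g E r M c c7) {x : Pt} (hx : x ∈ V) :
    deriv (fun s => ((M s)⁻¹ * mderiv M s).trace) (r x) =
      ((M (r x))⁻¹ * mderiv (mderiv M) (r x)).trace -
        (((M (r x))⁻¹ * mderiv M (r x)) * ((M (r x))⁻¹ * mderiv M (r x))).trace := by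
  have hM := h.smoothM x hx
  have hd := h.det_ne hx
  have dA : ∀ i j, DifferentiableAt ℝ (fun s => (M s)⁻¹ i j) (r x) := fun i j =>
    (contDiffAt_inv_entries hM hd i j).differentiableAt (by simp)
  have dM : ∀ i j, DifferentiableAt ℝ (fun s => M s i j) (r x) := fun i j =>
    (hM i j).differentiableAt (by simp)
  have dN : ∀ i j, DifferentiableAt ℝ (fun s => mderiv M s i j) (r x) := fun i j =>
    (contDiffAt_mderiv hM i j).differentiableAt (by simp)
  have hev : ∀ᶠ s in nhds (r x), (M s).det ≠ 0 :=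
    (contDiffAt_det_entries hM).continuousAt.eventually_ne hd
  let D := mderiv (fun s => (M s)⁻¹) (r x)
  have e1 : D * M (r x) + (M (r x))⁻¹ * mderiv M (r x) = 0 := by
    ext i j
    have he : (fun s => ∑ k, (M s)⁻¹ i k * M s k j) =ᶠ[nhds (r x)]
        fun _ => (1 : Matrix (Fin 6) (Fin 6) ℝ) i j := by
      filter_upwards [hev] with s hs
      rw [← Matrix.mul_apply, Matrix.nonsing_inv_mul _ (isUnit_iff_ne_zero.2 hs)]
    have e0 := he.deriv_eq
    rw [deriv_const, deriv_fun_sum fun k _ => (dA i k).fun_mul (dM k j)] at e0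
    simp only [deriv_fun_mul (dA i _) (dM _ j), Finset.sum_add_distrib] at e0
    simpa [Matrix.mul_apply, D, mderiv] using e0
  have e2 : D = -((M (r x))⁻¹ * mderiv M (r x) * (M (r x))⁻¹) := by
    calc D = D * M (r x) * (M (r x))⁻¹ :=
          (Matrix.mul_nonsing_inv_cancel_right _ _ (isUnit_iff_ne_zero.2 hd)).symm
      _ = _ := by rw [eq_neg_of_add_eq_zero_left e1, Matrix.neg_mul]
  have e3 : deriv (fun s => ((M s)⁻¹ * mderiv M s).trace) (r x) =
      (D * mderiv M (r x)).trace + ((M (r x))⁻¹ * mderiv (mderiv M) (r x)).trace := by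
    simp only [Matrix.trace, Matrix.diag_apply, Matrix.mul_apply]
    rw [deriv_fun_sum fun i _ => DifferentiableAt.fun_sum fun k _ => (dA i k).fun_mul (dN k i),
      ← Finset.sum_add_distrib]
    refine Finset.sum_congr rfl fun i _ => ?_
    rw [deriv_fun_sum fun k _ => (dA i k).fun_mul (dN k i), ← Finset.sum_add_distrib]
    refine Finset.sum_congr rfl fun k _ => ?_
    rw [deriv_fun_mul (dA i k) (dN k i)]
    rfl
  rw [e3, e2, Matrix.neg_mul, Matrix.trace_neg, Matrix.mul_assoc]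
  ring

end IsWarped

theorem frameRicci_radial (h : IsWarped V g E r M c c7) {x : Pt} (hx : x ∈ V) :
    frameRicci g E c7 0 0 x =
      -(1 / 2) * ((M (r x))⁻¹ * mderiv (mderiv M) (r x)).trace +
        (1 / 4) * (((M (r x))⁻¹ * mderiv M (r x)) * ((M (r x))⁻¹ * mderiv M (r x))).trace := by
  have h0 : ∀ a, frameGamma g E c7 a 0 a x = warpGamma M c7 (r x) a 0 a := fun a =>
    h.gamma_eq hx a 0 a
  have hsum : ∑ a, dirD (E 0) (frameGamma g E c7 a 0 a) x =
      (1 / 2) * deriv (fun s => ((M s)⁻¹ * mderiv M s).trace) (r x) := by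
    simp only [h.dirD_gamma hx, if_true]
    rw [← deriv_fun_sum fun a _ => (h.contDiffAt_gamma hx a _ a).differentiableAt (by simp)]
    simp only [h.trace_zero]
    exact deriv_const_mul_field _
  unfold frameRicci
  rw [hsum, h.deriv_trace hx]
  simp only [Fin.sum_univ_succ (n := 6), h.dirD_gamma hx, h.gamma_eq hx, h.gamma_00,
    h.gamma_l00, h.gamma_0l0, h.gamma_l0l, h.gamma_0ll, h.c7_mid,
    Fin.succ_ne_zero, if_true, if_false]
  simp only [deriv_const', Finset.sum_const_zero, mul_zero, zero_mul, add_zero, zero_add,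
    sub_zero, zero_sub, Finset.sum_neg_distrib]
  have hq : ∀ A : Matrix (Fin 6) (Fin 6) ℝ,
      ∑ a, ∑ d, (1 / 2) * A d a * ((1 / 2) * A a d) = (1 / 4) * (A * A).trace := by
    intro A
    simp only [Matrix.trace, Matrix.diag_apply, Matrix.mul_apply, Finset.mul_sum]
    exact Finset.sum_congr rfl fun a _ => Finset.sum_congr rfl fun d _ => by ring
  rw [hq]
  ring

theorem frameRicci_mixed (h : IsWarped V g E r M c c7) {x : Pt} (hx : x ∈ V) (i : Fin 6) :
    frameRicci g E c7 0 (lk i) x =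
      -(1 / 2) * ∑ k, ∑ l, linkGamma (M (r x)) c k i l *
        ((M (r x))⁻¹ * mderiv M (r x)) k l := by
  unfold frameRicci
  rw [h.sum_dirD_trace hx i]
  simp only [Fin.sum_univ_succ (n := 6), h.dirD_gamma hx, h.gamma_eq hx, h.gamma_00,
    h.gamma_0l0, h.gamma_l0l, h.gamma_0ll, h.gamma_ll0, h.gamma_lll, h.c7_mid,
    Fin.succ_ne_zero, if_true, if_false]
  simp only [deriv_const', Finset.sum_const_zero, mul_zero, zero_mul, add_zero, zero_add,
    sub_zero, Finset.sum_sub_distrib]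
  have ht : ∑ a, ∑ d, (1 / 2) * ((M (r x))⁻¹ * mderiv M (r x)) d i *
      linkGamma (M (r x)) c a d a = 0 := by
    rw [Finset.sum_comm]
    simp [← Finset.mul_sum, linkGamma_trace (h.symmM _) (h.det_ne hx) h.anti h.unimodular]
  rw [ht, zero_sub, Finset.mul_sum, ← Finset.sum_neg_distrib]
  refine Finset.sum_congr rfl fun k _ => ?_
  rw [Finset.mul_sum, ← Finset.sum_neg_distrib]
  exact Finset.sum_congr rfl fun l _ => by ring

theorem frameRicci_symm (h : IsWarped V g E r M c c7) {x : Pt} (hx : x ∈ V) (i : Fin 6) :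
    frameRicci g E c7 (lk i) 0 x = frameRicci g E c7 0 (lk i) x := by
  rw [frameRicci_mixed h hx]
  unfold frameRicci
  simp only [Fin.sum_univ_succ (n := 6), h.dirD_gamma hx, h.gamma_eq hx, h.gamma_00,
    h.gamma_l00, h.gamma_0l0, h.gamma_l0l, h.gamma_ll0, h.gamma_lll, h.c7_left,
    h.c7_right, h.c7_succ, Fin.succ_ne_zero, if_true, if_false]
  simp only [deriv_const', Finset.sum_const_zero, mul_zero, zero_mul, add_zero, zero_add,
    sub_zero, Finset.sum_sub_distrib]
  have hs := h.symmM (r x)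
  have hd := h.det_ne hx
  generalize hA : (M (r x))⁻¹ * mderiv M (r x) = A
  have ht : ∑ a, ∑ d, (1 / 2) * A d i * linkGamma (M (r x)) c a d a = 0 := by
    rw [Finset.sum_comm]
    simp [← Finset.mul_sum, linkGamma_trace hs hd h.anti h.unimodular]
  have he : ∑ a, ∑ d, (1 / 2) * A d a * linkGamma (M (r x)) c i d a =
      ∑ a, ∑ d, (1 / 2) * A a d * linkGamma (M (r x)) c i a d := Finset.sum_comm
  rw [ht, he]
  simp only [zero_sub, Finset.mul_sum, ← Finset.sum_neg_distrib, ← Finset.sum_sub_distrib]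
  refine Finset.sum_congr rfl fun k _ => Finset.sum_congr rfl fun l _ => ?_
  rw [← linkGamma_torsion hs hd h.anti k i l]
  ring

theorem frameRicci_link (h : IsWarped V g E r M c c7) {x : Pt} (hx : x ∈ V) (i j : Fin 6) :
    frameRicci g E c7 (lk i) (lk j) x =
      linkRicci (M (r x)) c i j - (1 / 2) * mderiv (mderiv M) (r x) i j +
        (1 / 2) * (mderiv M (r x) * (M (r x))⁻¹ * mderiv M (r x)) i j -
        (1 / 4) * ((M (r x))⁻¹ * mderiv M (r x)).trace * mderiv M (r x) i j := by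
  have hderiv : deriv (fun s => -(1 / 2) * mderiv M s i j) (r x) =
      -(1 / 2) * mderiv (mderiv M) (r x) i j := deriv_const_mul_field _
  unfold frameRicci linkRicci
  simp only [Fin.sum_univ_succ (n := 6), h.dirD_gamma hx, h.gamma_eq hx, h.gamma_00,
    h.gamma_l00, h.gamma_0l0, h.gamma_l0l, h.gamma_0ll, h.gamma_ll0, h.gamma_lll, h.c7_left,
    h.c7_right, h.c7_succ, hderiv, Fin.succ_ne_zero, if_true, if_false]
  simp only [Finset.sum_const_zero, mul_zero, zero_mul, add_zero, zero_add,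
    sub_zero, zero_sub, Finset.sum_sub_distrib, Finset.sum_add_distrib]
  have hT : ((M (r x))⁻¹ * mderiv M (r x)).trace = ∑ k, ((M (r x))⁻¹ * mderiv M (r x)) k k := rfl
  have hL : ∀ k, (mderiv M (r x) * (M (r x))⁻¹ * mderiv M (r x)) i k =
      ∑ l, mderiv M (r x) i l * ((M (r x))⁻¹ * mderiv M (r x)) l k := by
    intro k
    rw [Matrix.mul_assoc, Matrix.mul_apply]
  have hR : (mderiv M (r x) * (M (r x))⁻¹ * mderiv M (r x)) i j =
      ∑ l, ((M (r x))⁻¹ * mderiv M (r x)) l i * mderiv M (r x) l j := by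
    rw [Matrix.mul_apply]
    refine Finset.sum_congr rfl fun l _ => ?_
    congr 1
    simp only [Matrix.mul_apply]
    exact Finset.sum_congr rfl fun e _ => by
      rw [inv_apply_symm (h.symmM _) l e, h.mderiv_symm _ i e]; ring
  rw [hT]
  generalize hA : (M (r x))⁻¹ * mderiv M (r x) = A at hL hR ⊢
  have s1 : ∑ k, -(1 / 2 * A k j * (-(1 / 2) * mderiv M (r x) i k)) =
      (1 / 4) * (mderiv M (r x) * (M (r x))⁻¹ * mderiv M (r x)) i j := by
    rw [hL j, Finset.mul_sum]
    exact Finset.sum_congr rfl fun k _ => by ring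
  have s2 : ∑ k, -(1 / 2) * mderiv M (r x) i j * (1 / 2 * A k k) =
      -(1 / 4) * (∑ k, A k k) * mderiv M (r x) i j := by
    rw [Finset.mul_sum, Finset.sum_mul]
    exact Finset.sum_congr rfl fun k _ => by ring
  have s3 : ∑ k, -(1 / 2) * mderiv M (r x) k j * (1 / 2 * A k i) =
      -(1 / 4) * (mderiv M (r x) * (M (r x))⁻¹ * mderiv M (r x)) i j := by
    rw [hR, Finset.mul_sum]
    exact Finset.sum_congr rfl fun k _ => by ring
  rw [s1, s2, s3]
  ring

theorem laplacian_warped (h : IsWarped V g E r M c c7) {u : Pt → ℝ} (hu : ContDiffOn ℝ ∞ u V)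
    {x : Pt} (hx : x ∈ V) :
    laplacian g u x = dirD (E 0) (dirD (E 0) u) x +
      (1 / 2) * ((M (r x))⁻¹ * mderiv M (r x)).trace * dirD (E 0) u x +
      ∑ i, ∑ j, (M (r x))⁻¹ i j * dirD (E (lk i)) (dirD (E (lk j)) u) x := by
  rw [laplacian_frame h.frame h.smoothG h.posDef hu hx, h.inv_eq hx]
  simp only [Fin.sum_univ_succ (n := 6), h.gamma_eq hx, h.gamma_00, h.gamma_ll0, h.gamma_lll,
    warpExt_zero_zero, warpExt_zero_succ, warpExt_succ_zero, warpExt_succ_succ, zero_mul,
    Finset.sum_const_zero, add_zero, zero_add, sub_zero, one_mul]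
  have hw := fun l => linkGamma_inv_trace (h.symmM (r x)) (h.det_ne hx) h.anti h.unimodular l
  have hT : ((M (r x))⁻¹ * mderiv M (r x)).trace =
      ∑ i, ∑ j, (M (r x))⁻¹ i j * mderiv M (r x) i j := by
    simp only [Matrix.trace, Matrix.diag_apply, Matrix.mul_apply]
    exact Finset.sum_congr rfl fun i _ => Finset.sum_congr rfl fun j _ => by
      rw [h.mderiv_symm _ j i]
  have hz : ∑ i, ∑ j, (M (r x))⁻¹ i j *
      ∑ l, linkGamma (M (r x)) c i j l * dirD (E l.succ) u x = 0 := by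
    calc _ = ∑ l, (∑ i, ∑ j, (M (r x))⁻¹ i j * linkGamma (M (r x)) c i j l) *
          dirD (E l.succ) u x := by
          simp only [Finset.mul_sum, Finset.sum_mul]
          symm
          rw [Finset.sum_comm]
          refine Finset.sum_congr rfl fun i _ => ?_
          rw [Finset.sum_comm]
          exact Finset.sum_congr rfl fun j _ => Finset.sum_congr rfl fun l _ => by ring
      _ = 0 := by simp [hw]
  rw [hT]
  simp only [mul_sub, mul_add, Finset.sum_sub_distrib, Finset.sum_add_distrib, hz]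
  have e : ∑ i, ∑ j, (M (r x))⁻¹ i j * (-(1 / 2) * mderiv M (r x) i j * dirD (E 0) u x) =
      -((1 / 2) * (∑ i, ∑ j, (M (r x))⁻¹ i j * mderiv M (r x) i j) * dirD (E 0) u x) := by
    simp only [Finset.mul_sum, Finset.sum_mul, ← Finset.sum_neg_distrib]
    exact Finset.sum_congr rfl fun i _ => Finset.sum_congr rfl fun j _ => by ring
  rw [e]
  ring

end Vale.Agent.P225
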